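import Crest.Agent.X212.Rs52.Gen
import Crest.Agent.X212.Cut54.Deg
import Crest.Agent.X212.Met55.Vol

/-!
# Row 212, BR-RS (helper52), part Abs: the lattice of the inside, determinants and fluxes through charts
-/

set_option autoImplicit false
set_option maxHeartbeats 400000
set_option linter.unusedSectionVars false
noncomputable section
open Set Function Filter Topology Matrix
open scoped ContDiff Manifold Real
open Crest.Agent.R208.F (Ext)
open Crest.Agent.R208.FI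

namespace Crest.Agent.X212.Rs52
open Dr59 Pj41
open Line51 hiding tp
open Rod53 (ld_pd)
open Rn83 (Ins orth ip_orth)
open Lab56 (Sc)
open Hol14 (flux)

variable {E : Type} [NormedAddCommGroup E] [NormedSpace ℝ E] [FiniteDimensional ℝ E] [MeasurableSpace E]
  [BorelSpace E] {H : Type} [TopologicalSpace H] {I : ModelWithCorners ℝ E H} [I.Boundaryless]
  {M : Type} [TopologicalSpace M] [ChartedSpace H M] [IsManifold I ∞ M] [T2Space M] [MeasurableSpace M]
  [BorelSpace M] [SecondCountableTopology M]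
  {E' : Type} [NormedAddCommGroup E'] [NormedSpace ℝ E'] [FiniteDimensional ℝ E'] [MeasurableSpace E']
  [BorelSpace E'] {H' : Type} [TopologicalSpace H'] {J : ModelWithCorners ℝ E' H'} [J.Boundaryless]
  {N : Type} [TopologicalSpace N] [ChartedSpace H' N] [IsManifold J ∞ N] [T2Space N] [MeasurableSpace N]
  [BorelSpace N] [SecondCountableTopology N]

section ins

variable {κ : Type} [Fintype κ] [DecidableEq κ] {o f η g w : M → Ext E} {D : Set M} {e : κ → M → Ext E}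
  (h : Ins I o D D e (fun _ => -(2 * π) ^ 2) f)
include h

theorem gram (k l : κ) : ip I o ((2 * π)⁻¹ • e k) ((2 * π)⁻¹ • e l) = if k = l then -1 else 0 := by
  rw [ip_smul, ip_smul_right, h.gram, diagonal_apply]
  split_ifs
  · field_simp
  · simp

theorem span (hη : Cl I 2 D η) (h0 : ip I o η f ≠ 0) (hw : Cl I 2 D w) :
    ∃ (c : κ → ℝ) (r : ℝ), Ex I D (w - ∑ k, c k • (2 * π)⁻¹ • e k - r • η) := by
  have c := hw.sub (hη.smul (ip I o w f / ip I o η f))
  refine ⟨fun k => 2 * π * (ip I o (w - (ip I o w f / ip I o η f) • η) (e k) / -(2 * π) ^ 2), ip I o w f / ip I o η f, ?_⟩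
  simp only [smul_smul, mul_right_comm (2 * π), mul_inv_cancel₀ Real.two_pi_pos.ne', one_mul]
  rw [sub_right_comm]
  refine h.ex _ (c.sub (cl_sum fun i _ => ((h.cs i).on D).smul _)) (orth h.ori h.cs h.gram (fun i => (h.neg i).ne) c.sm) ?_
  simp [ip_orth h.ori h.cs c.sm _ h.cf, h.ef, h.cf.ip_sub h.ori hw.sm (hη.smul _).sm, ip_smul, h0]

theorem exg (hg : Cl I 2 D g) (g0 : ip I o g f = 0) {Z : Finset κ} {a : κ → ℝ}
    (g1 : ∀ k, ip I o g (e k) = (2 * π) ^ 2 * if k ∈ Z then -a k else 0) :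
    Ex I D ((2 * π)⁻¹ • g - ∑ k ∈ Z, a k • (2 * π)⁻¹ • e k) := by
  have e1 : ∑ k ∈ Z, a k • (2 * π)⁻¹ • e k = (2 * π)⁻¹ • ∑ k, (if k ∈ Z then a k else 0) • e k := by
    simp [Finset.smul_sum, smul_comm (a _), ite_smul]
  rw [e1, ← smul_sub]
  refine (h.ex _ (hg.sub (cl_sum fun i _ => ((h.cs i).on D).smul _)) (fun k => ?_) ?_).smul _
  · rw [ip_orth h.ori h.cs hg.sm _ (h.cs k), g1]
    by_cases l : k ∈ Z <;> simp [h.gram, diagonal_apply, mul_comm, l]
  · rw [ip_orth h.ori h.cs hg.sm _ h.cf]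
    simp [g0, h.ef]

end ins

variable {lam : Type} [Fintype lam] (φ : PartialDiffeomorph J I N M ∞) {W : Set N} {p : M → Matrix lam lam ℂ}

theorem psh_zero {a : N → Ext E'} {y : N} (hy : y ∈ φ.source) (h : a y = 0) : psh φ a (φ y) = 0 :=
  pm_inj (b := 0) (ld_pd φ hy) ((pm_psh φ hy a).trans (h.trans (congrFun (pm_zero _) y).symm))

/-- determinants through a chart -/
theorem ref_psh (hW : IsOpen W) (h : W ⊆ φ.source) {ι κ : Type} [Fintype ι] [DecidableEq ι] [Fintype κ] [DecidableEq κ]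
    {c : Sc J N ι κ} (hc : c.On W) {g : N → Ext E'}
    (e : Ex J W (Ln.F J ⟨c.det, 0⟩ - (pm J I φ (Ln.F I ⟨p, 0⟩) + g))) : Rf65.Ref I p (φ '' W) ((2 * π)⁻¹ • psh φ g) := by
  have d := hc.pull (I' := I) (W := φ '' W) (f := φ.symm) (fun z ⟨y, a, b⟩ => b ▸ ld_pd φ.symm (φ.map_source (h a)))
    (pd_mp_symm φ h).maps
  have l : ∀ {c : Sc I M ι κ} {U}, c.On U → (⟨c.det, 0⟩ : Ln E M _).On I U := fun d =>
    ⟨d.det.sm, d.det.prj, d.det.tr, fun _ _ => cAt_zero, Dg.zero⟩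
  refine ⟨_, _, _, inferInstance, _, _, _, d, ex_pd φ hW h (e.congr fun y k => ?_)⟩
  rw [smul_smul, mul_inv_cancel₀ Real.two_pi_pos.ne', one_smul, pm_sub, pm_sub, Pi.sub_apply, Pi.sub_apply, pm_psh φ (h k),
    ← (l d).F_pull (pd_open φ hW h) hW (pd_mp φ h) k, Pi.sub_apply, Pi.add_apply, sub_sub]
  have l' : (⟨c.det, 0⟩ : Ln E' N _).On J W := ⟨hc.det.sm, hc.det.prj, hc.det.tr, fun _ _ => cAt_zero, Dg.zero⟩
  exact congrArg (· - _) (l'.F_congr hW (fun z k => congrArg c.det (φ.left_inv (h k))) (fun z _ => congrFun (pm_zero _) z) k)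

/-- fluxes through a cut that comes from the model -/
theorem flux_cut [CompactSpace M] {μ : Type} [Fintype μ] {k : An.Cut N μ} {k' : An.Cut M μ} (hd : Csm97.Dat J k)
    (e : ∀ θ s, k'.γ θ s = φ (k.γ θ s)) (hs : ∀ θ s, k.γ θ s ∈ W) (h : W ⊆ φ.source) {q u : N → Matrix lam lam ℂ}
    (hu : Uni J q (fun x => p (φ x)) u W) (dg : Cut54.Deg (fun θ s => q (k.γ θ s)) 2) (hp : (⟨p, 0⟩ : Ln E M lam).On I univ)
    {O : Set M} (hO : IsOpen O) (sO : ∀ θ s, k'.γ θ s ∈ O) {c : M → Ext E} (hc : Cl I 2 O c) {r : ℝ}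
    (x : Ex I O (c - r • Ln.F I ⟨p, 0⟩)) : flux I k' c = r * (4 * π) := by
  obtain ⟨_, F, -⟩ := Met55.exists_fr (I := I) (M := M)
  have h0 : ∀ θ, k.γ θ 0 = k.γ 0 0 := fun θ => hd.h0 θ 0 le_rfl
  have h1 : ∀ θ, k.γ θ 1 = k.γ 0 1 := fun θ => hd.h1 θ 1 le_rfl
  have e' : k'.γ = fun θ s => φ (k.γ θ s) := funext₂ e
  have sm : ContMDiff Cut54.I2 I ∞ (Cut54.un k'.γ) := e' ▸ fun y => ((pd_mp φ h).sm _ (hs _ _)).comp y (hd.sm y)
  have d : Csm97.Dat I (⟨k'.γ, [], []⟩ : An.Cut M μ) := ⟨sm, fun θ s a => by simp [An.Cut.x0, e, hd.h0 θ s a],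
    fun θ s a => by simp [e, hd.h1 θ s a], by simp, by simp⟩
  have f := Cut54.Deg.flx (L := ⟨p, 0⟩) (γ := k'.γ) (by simpa only [e] using dg.uni hd.sm h0 h1 hs hu) isOpen_univ hp sm
    (fun θ => by rw [e, e, h0]) (fun θ => by rw [e, e, h1]) fun _ _ => trivial
  refine (Hol14.flux_eq F d hO (fun _ ⟨y, a⟩ => a ▸ sO _ _) hc (((hp.cl_F isOpen_univ).mono (subset_univ _)).smul r) x).trans ?_
  rw [Hol14.flux_smul]
  exact congrArg _ (f.trans (by push_cast; ring))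

end Crest.Agent.X212.Rs52
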