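import Crest.Agent.X212.Ds83.Rw

/-!
# Row 212, BR-RS (helper52): the two leaves
-/

set_option autoImplicit false
noncomputable section
open Set
open scoped ContDiff Manifold

namespace Crest.Agent.X212.Rs52
open M Wd38 Nm96 Cyl58 Rod53
open Crest.GeometryTopology.DehnSurgery (S3)

/-- REF-SC: a spin^c structure on the toric part whose determinant has odd orders -/
def ScStmt : Prop := ∀ (T : Tb (𝓡 3) S3) (a : ℤ → Z2), IsWd a →
  ∃ (ι κ : Type) (_ : Fintype ι) (_ : DecidableEq ι) (_ : Fintype κ) (_ : DecidableEq κ)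
    (d : Lab56.Sc (𝓡 4) (X T (wd a)) ι κ) (k : ℤ → ℤ) (s : X T (wd a) → Matrix (κ × κ) Unit ℂ),
    d.On (T.tor (wd a)) ∧ Line51.TL T (wd a) (Line51.wm a k) d.det s (T.tor (wd a)) ∧ ∀ j, Odd (k j)

/-- SC: the inside of an `S¹ × S²` arc is simply connected, also off a ball -/
def SimStmt : Prop := ∀ {Γ : Nm} {C : Cx Γ} {w : Shp Γ} {hw : w.OK} {X : TP V4} (R : Rz C hw X) (x y : ℤ) (e : Bs),
  (Bs.rA x y).OK w → e.OK w → e.arc → e.pin → x < e.lo → e.hi < y →
  Rf65.SC (Sid48.sd R (.rA x y) false) ∧ Rf65.SC (Sid48.sd R (.rA x y) false ∩ Sid48.sd R e true)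

end Crest.Agent.X212.Rs52
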