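import Crest.Agent.X212.Rn83.Abs
import Crest.Agent.X212.Loc8.Rl
import Crest.Agent.X212.Vtx52.Main
import Crest.Agent.X212.Rf65.Rs

/-!
# Row 212, BR-RS (helper52), part Gen: push forward, padding of lines, the area form, ends
-/

set_option autoImplicit false
set_option maxHeartbeats 400000
set_option linter.unusedSectionVars false
noncomputable section
open Set Function Filter Topology Matrix
open scoped ContDiff Manifold Real
open Crest.Agent.R208.F (Ext io io_anti io_sq)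
open Crest.Agent.R208.FI

namespace Crest.Agent.X212.Rs52
open Dr59 Pj41 Glue52
open Line51 hiding tp
open Rod53 (E3 L3 norm_L3)
open Loc8 (RL)
open Rf65 (LE ar)

variable {E : Type} [NormedAddCommGroup E] [NormedSpace ℝ E] [FiniteDimensional ℝ E] [MeasurableSpace E]
  [BorelSpace E] {H : Type} [TopologicalSpace H] {I : ModelWithCorners ℝ E H} [I.Boundaryless]
  {M : Type} [TopologicalSpace M] [ChartedSpace H M] [IsManifold I ∞ M] [T2Space M]

section psh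

variable {E' : Type} [NormedAddCommGroup E'] [NormedSpace ℝ E'] [FiniteDimensional ℝ E'] [MeasurableSpace E']
  [BorelSpace E'] {H' : Type} [TopologicalSpace H'] {J : ModelWithCorners ℝ E' H'} [J.Boundaryless]
  {N : Type} [TopologicalSpace N] [ChartedSpace H' N] [IsManifold J ∞ N] [T2Space N]
  (φ : PartialDiffeomorph J I N M ∞) {W : Set N} {a b : N → Ext E'} {k : ℕ}

theorem psh_eq (h : W ⊆ φ.source) (a : N → Ext E') : EqOn (psh φ a) (pm I J φ.symm a) (φ '' W) := by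
  rintro _ ⟨y, hy, rfl⟩
  exact indicator_of_mem (φ.map_source (h hy)) _

theorem sm_psh (hW : IsOpen W) (h : W ⊆ φ.source) (ha : Sm J W a) : Sm I (φ '' W) (psh φ a) :=
  (ha.pm (pd_mp_symm φ h)).congr (pd_open φ hW h) (psh_eq φ h a)

theorem dg_psh (h : W ⊆ φ.source) (ha : Dg k W a) : Dg k (φ '' W) (psh φ a) :=
  (ha.pm (pd_mp_symm φ h).maps).congr (psh_eq φ h a)

theorem cl_psh (hW : IsOpen W) (h : W ⊆ φ.source) (ha : Cl J k W a) : Cl I k (φ '' W) (psh φ a) :=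
  (ha.pm (pd_mp_symm φ h)).congr (pd_open φ hW h) (psh_eq φ h a)

theorem dM_psh (hW : IsOpen W) (h : W ⊆ φ.source) (ha : Sm J W a) (e : ∀ y ∈ W, dM J a y = b y) :
    EqOn (dM I (psh φ a)) (psh φ b) (φ '' W) := fun x hx =>
  have m := pd_mp_symm φ h
  (dM_eqOn (pd_open φ hW h) (psh_eq φ h a) hx).trans ((dM_pm ne0 (m.sm x hx) (ha _ (m.maps hx))).trans
    ((pm_congr_right (e _ (m.maps hx))).trans (psh_eq φ h b hx).symm))

theorem psh_sub (a b : N → Ext E') : psh φ (a - b) = psh φ a - psh φ b := by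
  rw [psh, pm_sub]
  exact indicator_sub' _ _ _

theorem psh_smul (r : ℝ) (a : N → Ext E') : psh φ (r • a) = r • psh φ a := by
  rw [psh, pm_smul]
  exact funext fun x => indicator_const_smul_apply _ r (pm I J φ.symm a) x

end psh

/-- lines of one size -/
theorem pad [MeasurableSpace M] [BorelSpace M] [SecondCountableTopology M] {ι : Type} [Fintype ι] {U : Set M}
    {f : ι → M → Ext E} (h : ∀ k, ∃ K, IsCompact K ∧ K ⊆ U ∧ RL I K (f k)) :
    ∃ (μ : Type) (_ : Fintype μ) (L : ι → Ln E M μ), ∀ k, LE I (L k) U ∧ (L k).F I = f k := by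
  classical
  choose K k1 k2 κ _ L p h1 h2 h3 h4 h5 using h
  refine ⟨Σ k, κ k, inferInstance, fun k => (L k).cj (Line51.em (Sigma.mk k)), fun k => ?_⟩
  have e := em_iso (κ := κ k) (sigma_mk_injective (β := κ) (i := k))
  obtain ⟨s, hs⟩ := exists_unit (h2 k) (h3 k)
  refine ⟨⟨(h1 k).cj isOpen_univ e, K k, _, k1 k, k2 k, Iso.trans (L' := L k) (u := fun _ => s)
    ⟨⟨fun _ _ => .const _, fun x hx => (h4 k x hx).1 ▸ hs⟩, fun x hx => by simp [triv, (h4 k x hx).2]⟩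
    (((h1 k).iso_cj isOpen_univ e).mono (subset_univ _))⟩, funext fun x => ?_⟩
  rw [h5, (h1 k).F_cj isOpen_univ e trivial]

section ar

variable {ϖ : M → E3} {q : M}

variable (I) in
/-- the angle round the axis -/
def ps (ϖ : M → E3) : M → Ext E := ang I fun z => dir (L3 (ϖ z)).1

variable (I) in
/-- `x dy - y dx` -/
def sg2 (ϖ : M → E3) : M → Ext E := (fun z => ϖ z 0) • df I (fun z => ϖ z 1) - (fun z => ϖ z 1) • df I fun z => ϖ z 0

theorem sm_co (h : FSm I ϖ q) (k : Fin 3) : FSm I (fun z => ϖ z k) q :=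
  (EuclideanSpace.proj (𝕜 := ℝ) k).contDiff.contDiffAt.comp_contMDiffAt h

theorem sm_z (h : FSm I ϖ q) : FSm I (fun z => (L3 (ϖ z)).1) q :=
  (contDiff_fst.comp L3.contDiff).contDiffAt.comp_contMDiffAt h

theorem csm_ps (h : FSm I ϖ q) (k : (L3 (ϖ q)).1 ≠ 0) : CSm I (fun z => dir (L3 (ϖ z)).1) q :=
  (contMDiffAt_dir k).comp q (sm_z h)

theorem polar (h : FSm I ϖ q) (h1 : ∀ z, ‖ϖ z‖ = 1) (k : (L3 (ϖ q)).1 ≠ 0) :
    sg2 I ϖ q = (1 - ϖ q 2 ^ 2) • ps I ϖ q ∧ ar I ϖ q = -(df I (fun z => ϖ z 2) q * ps I ϖ q) := by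
  have r : FSm I (fun z => ‖(L3 (ϖ z)).1‖) q := (contDiffAt_norm_c k).comp_contMDiffAt (f := fun z => (L3 (ϖ z)).1) (sm_z h)
  obtain ⟨a, b⟩ := Vtx52.df_polar r (csm_ps h k)
  simp only [norm_mul_dir] at a b
  have n : ∀ z, ϖ z 2 * ϖ z 2 + ‖(L3 (ϖ z)).1‖ * ‖(L3 (ϖ z)).1‖ = 1 := fun z => by
    simpa [h1, pow_two, show (L3 (ϖ z)).2 = ϖ z 2 from rfl] using norm_L3 (ϖ z)
  have c := (df_add ((sm_co h 2).mul (sm_co h 2)) (r.mul r)).symm.trans (df_eq_zero (Eventually.of_forall n))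
  rw [show df I (_ * _) q = _ from Orx52.df_mul (sm_co h 2) (sm_co h 2), show df I (_ * _) q = _ from
    Orx52.df_mul r r] at c
  have x0 : ϖ q 0 = ‖(L3 (ϖ q)).1‖ * (dir (L3 (ϖ q)).1 : ℂ).re := by
    rw [← Complex.re_ofReal_mul, norm_mul_dir]; rfl
  have x1 : ϖ q 1 = ‖(L3 (ϖ q)).1‖ * (dir (L3 (ϖ q)).1 : ℂ).im := by
    rw [← Complex.im_ofReal_mul, norm_mul_dir]; rfl
  have u := Vtx52.sq_add (dir (L3 (ϖ q)).1)
  have n' := n q
  have s1 : ps I ϖ q * df I (fun z => ϖ z 2) q = -(df I (fun z => ϖ z 2) q * ps I ϖ q) := io_anti _ _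
  have s2 : df I (fun z => ϖ z 2) q * df I (fun z => ϖ z 2) q = 0 := io_sq _
  have s3 : ps I ϖ q * ps I ϖ q = 0 := io_sq _
  have a' : df I (fun z => ϖ z 0) q = _ := a
  have b' : df I (fun z => ϖ z 1) q = _ := b
  have c' : df I (fun z => ‖(L3 (ϖ z)).1‖) q = (-ϖ q 2 / ‖(L3 (ϖ q)).1‖) • df I (fun z => ϖ z 2) q := by
    have := norm_ne_zero_iff.2 k
    refine smul_right_injective _ (mul_ne_zero two_ne_zero this) ?_
    simp only [smul_smul]
    rw [show 2 * ‖(L3 (ϖ q)).1‖ * (-ϖ q 2 / ‖(L3 (ϖ q)).1‖) = -(2 * ϖ q 2) by field_simp]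
    linear_combination (norm := module) c
  have := norm_ne_zero_iff.2 k
  simp only [ar, sg2, Fin.sum_univ_three, Pi.sub_apply, Pi.smul_apply', Fin.reduceAdd, a', b', c', ← ps.eq_1, x0, x1,
    mul_add, add_mul, mul_sub, sub_mul, smul_mul_assoc, mul_smul_comm, s1, s2, s3]
  generalize ‖(L3 (ϖ q)).1‖ = ρ, (dir (L3 (ϖ q)).1 : ℂ).re = p, (dir (L3 (ϖ q)).1 : ℂ).im = t at *
  constructor <;> match_scalars <;> field_simp
  · ring
  · linear_combination n' + ρ ^ 2 * u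
  · linear_combination -n' - (ρ ^ 2 + ϖ q 2 ^ 2) * u

/-- **the area form** is cohomologous to every form with a potential that is `∓ ps` near the poles -/
theorem ar_pot (h : ∀ q, FSm I ϖ q) (h1 : ∀ z, ‖ϖ z‖ = 1) (hd : Dense {q | (L3 (ϖ q)).1 ≠ 0}) {F γ : M → Ext E}
    (hF : Sm I univ F) (hγ : ∀ q, (L3 (ϖ q)).1 ≠ 0 → SmAt I γ q ∧ IsDeg 1 (γ q) ∧ dM I γ q = F q)
    (hp : ∀ q, (L3 (ϖ q)).1 = 0 → ∀ᶠ z in 𝓝 q, (L3 (ϖ z)).1 ≠ 0 → γ z = -ϖ q 2 • ps I ϖ z) :
    ∃ β, Sm I univ β ∧ Dg 1 univ β ∧ ∀ q, ar I ϖ q = F q + dM I β q := by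
  have o : IsOpen {q | (L3 (ϖ q)).1 ≠ 0} := isOpen_ne.preimage
    (continuous_iff_continuousAt.2 fun q => (sm_z (h q)).continuousAt)
  have s : ∀ q, (L3 (ϖ q)).1 ≠ 0 → SmAt I ((fun z => ϖ z 2) • ps I ϖ) q := fun q k =>
    (smAt_ang (csm_ps (h q) k)).fsmul le_rfl (sm_co (h q) 2)
  obtain ⟨β, b1, b2, b3⟩ := exists_ext_form (I := I) hd isOpen_univ (k := 1) (α := -((fun z => ϖ z 2) • ps I ϖ) - γ)
    fun q _ => by
      by_cases k : (L3 (ϖ q)).1 = 0
      · have e : ϖ q 2 * ϖ q 2 = 1 := by simpa [h1, k, pow_two, show (L3 (ϖ q)).2 = ϖ q 2 from rfl] using norm_L3 (ϖ q)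
        have c : FSm I (fun z => 1 + ϖ q 2 * ϖ z 2) q := contMDiffAt_const.add (contMDiffAt_const.mul (sm_co (h q) 2))
        have n : 1 + ϖ q 2 * ϖ q 2 ≠ 0 := by rw [e]; norm_num
        refine ⟨(fun z => ϖ q 2 * (1 + ϖ q 2 * ϖ z 2)⁻¹) • sg2 I ϖ, ⟨(((smAt_df (sm_co (h q) 1)).fsmul le_rfl
          (sm_co (h q) 0)).sub ((smAt_df (sm_co (h q) 0)).fsmul le_rfl (sm_co (h q) 1))).fsmul le_rfl
          (contMDiffAt_const.mul (c.inv₀ n)), (((dg_df _).fsmul _).sub ((dg_df _).fsmul _)).fsmul _ q (mem_univ q)⟩, ?_⟩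
        filter_upwards [hp q k, c.continuousAt.eventually_ne n] with z a b l
        simp only [Pi.sub_apply, Pi.neg_apply, Pi.smul_apply', a l, (polar (h z) h1 l).1]
        match_scalars
        linear_combination (ϖ z 2 - ϖ q 2) * mul_inv_cancel₀ b + ϖ z 2 * (1 + ϖ q 2 * ϖ z 2)⁻¹ * e
      · exact ⟨_, ⟨(s q k).neg.sub (hγ q k).1, (((dg_ang _).fsmul _).neg.sub (U := {q}) fun _ e => e ▸ (hγ q k).2.1) q rfl⟩,
          Eventually.of_forall fun _ _ => rfl⟩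
  have t : ∀ q, SmAt I (ar I ϖ) q := fun q => by
    have := cAt_sum (I := I) (s := Finset.univ) fun (k : Fin 3) _ => ((smAt_df (sm_co (h q) (k + 1))).mul
      (smAt_df (sm_co (h q) (k + 2)))).fsmul le_rfl (sm_co (h q) k)
    exact this.congr (Eventually.of_forall fun z => by simp [ar])
  refine ⟨β, b1, b2, fun q => form_eq_of_dense (b := F + dM I β) hd ((t q).of_le (by simp))
    (((hF q trivial).add (b1 q trivial).dM).of_le (by simp)) (Eventually.of_forall fun z k => ?_)⟩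
  rw [Pi.add_apply, dM_congr (eventually_of_mem (o.mem_nhds k) fun y => b3 y trivial), dM_sub ne0 (s z k).neg (hγ z k).1,
    dM_neg, Pi.neg_apply, ps, dM_fsmul ne0 ((sm_co (h z) 2).mdifferentiableAt ne0) (smAt_ang (csm_ps (h z) k)),
    dM_ang (csm_ps (h z) k), (hγ z k).2.2, (polar (h z) h1 k).2]
  simp [ps]

end ar

open M Cyf70 in
/-- **ends**: a closed form is changed inside the band -/
theorem exists_end {X : Mf 4} (B : Band X) {F : X.M → Ext X.E} (hF : Cl X.I 2 (B.wall.sd false) F)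
    {β : B.Y.M × ℝ → Ext (B.Y.E × ℝ)}
    (h1 : Sm (IC B.Y.I) univ β) (h2 : Dg 1 univ β) : ∃ η, Cl X.I 2 (B.wall.sd false) η ∧
      Ex X.I (B.wall.sd false) (η - F) ∧ (∀ z ∈ B.wall.sd false, z ∉ B.wall.band → η z = F z) ∧
      ∀ q : B.Y.M × ℝ, -1 < q.2 → q.2 < 0 →
        Dr59.pm (IC B.Y.I) X.I B.j η q = Dr59.pm (IC B.Y.I) X.I B.j F q + dM (IC B.Y.I) β q := by
  have c : Cz X.I (B.wall.sd false) B.wall.band fun z => sw 1 (B.s z + 3) :=
    ⟨fun z _ => ((contDiff_sw 1).comp (contDiff_id.add contDiff_const)).contMDiff.comp B.contMDiff_s z, fun z a b => by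
      have k := B.three_le_abs_s (x := z) fun ⟨q, _, e⟩ => b ⟨q, e⟩
      have l : B.s z < 0 := by simpa [M.pm] using B.mem_sd.1 a
      rw [abs_of_neg l] at k
      exact (B.contMDiff_s.continuous.continuousAt.eventually_lt continuousAt_const
        (show B.s z < -2 by linarith)).mono fun y m => sw_zero one_pos (by linarith)⟩
  have s := c.sm_smul (β := psh B.oe.pd β) ((sm_psh B.oe.pd isOpen_univ subset_rfl h1).mono image_univ.ge)
  have d := cl_dM (B.wall.op_sd _) s (c.dg_smul ((dg_psh B.oe.pd subset_rfl h2).mono image_univ.ge))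
  refine ⟨_, hF.add d, by simpa using ex_dM s, fun z a b => ?_, fun q a b => ?_⟩
  · rw [Pi.add_apply, dM_congr (c.smul_zero a b _), dM_zero, Pi.zero_apply, add_zero]
  · rw [pm_add, Pi.add_apply, ← dM_pm ne0 (B.oe.contMDiff q) (s _ (B.j_mem_sd.2 (by simpa [M.pm] using b))), pm_fsmul]
    refine congrArg _ (dM_congr ?_)
    filter_upwards [(isOpen_Ioo.preimage continuous_snd).mem_nhds (show q.2 ∈ Ioo (-1) 0 from ⟨a, b⟩)] with p k
    rw [Pi.smul_apply', Function.comp_apply, B.s_j_of_le (abs_le.2 ⟨by linarith [k.1], by linarith [k.2]⟩),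
      sw_one one_pos (by linarith [k.1]), one_smul]
    exact pm_psh B.oe.pd trivial β

end Crest.Agent.X212.Rs52
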