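import Crest.Agent.X212.Rs52.Rod
import Crest.Agent.X212.Nv5.ChB

/-!
# Row 212, BR-RS (helper52), part Int: integrality inside the arc, tests cut along a ball
-/

set_option autoImplicit false
set_option maxHeartbeats 400000
set_option linter.unusedSectionVars false
set_option linter.style.haveILetI false

open Set Filter Topology Function Metric
open scoped ContDiff Manifold Real
open Crest.Agent.R208 Crest.Agent.R208.FI
open Crest.Agent.R208.F hiding wd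
open Crest.Agent.X212.Line51 hiding tp Uni Cs
open Crest.Agent.X212.Orx52 Crest.Agent.X212.Rod53 Crest.Agent.X212.Pj41 Crest.Agent.X212.Dr59
open Crest.Agent.X212.Lab56 (Pic0 LOn mem_rod_target rod_symm dfm_off)
open Crest.Agent.X212.Wd38 (cc)

noncomputable section

namespace Crest.Agent.X212.Rs52

variable {EN HN : Type} [NormedAddCommGroup EN] [NormedSpace ℝ EN] [FiniteDimensional ℝ EN]
  [TopologicalSpace HN] {IN : ModelWithCorners ℝ EN HN} [IN.Boundaryless]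
  {N : Type} [TopologicalSpace N] [ChartedSpace HN N] [IsManifold IN ∞ N] [T2Space N] [CompactSpace N] {T : Tb IN N}
  {a : ℤ → Z2} {x y s p q : ℤ} {n d : ℤ → ℤ} {α o : N → Ext EN} {O f φ : X T (wd a) → Ext E4}
  {U : Set (X T (wd a))} {M : ℕ} {ε d' : Fin M → ℤ → ℤ} {e : Fin M → X T (wd a) → Ext E4} {J J' : Set ℝ} {δ r : ℝ}
  [MeasurableSpace (X T (wd a))] [BorelSpace (X T (wd a))] [SecondCountableTopology (X T (wd a))]

variable (T a) in
/-- the low part over `J` -/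
abbrev lw (J : Set ℝ) (δ : ℝ) : Set (X T (wd a)) := T.ov (wd a) (univ ×ˢ Iio δ) ∩ T.time (wd a) ⁻¹' J

theorem isOpen_lw (hJ : IsOpen J) : IsOpen (lw T a J δ) :=
  (T.isOpen_ov (isOpen_univ.prod isOpen_Iio)).inter (hJ.preimage T.continuous_time)

theorem pic_lw {u b : Z2} (hu : Uni u b) (hJ : IsOpen J) (hc : OrdConnected J) (hJ' : IsOpen J') (hc' : Convex ℝ J')
    (h : J' ⊆ Jr (wd a) u) (h' : J' ⊆ J) (hr : r ∈ J') : Pic0 (𝓡 4) (lw T a J δ) (lw T a J δ ∩ off T (wd a)) := by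
  have := Int54.sigmaCompact (I := 𝓡 4) (X T (wd a))
  have m := fun z (hz : z ∈ lw T a J' δ) => mem_rod_target hu hz.1.1 (.inr (h hz.2))
  have k : Pic0 (𝓡 4) (lw T a J' δ) (lw T a J' δ) :=
    (Nv5.Ch.pic_cvx (K := ball 0 δ ×ˢ J') (isOpen_ball.prod hJ') ((convex_ball _ _).prod hc')).comp
      (f := (T.rod (wd a) hu).symm) (g := T.rod (wd a) hu) (fun z hz => (ld_pd (T.rod _ hu).symm (m z hz)).contMDiffAt)
      (fun z hz => ⟨mem_ball_zero_iff.2 ((T.yy_rod hu ((T.rod _ hu).map_target (m z hz))).symm.trans_lt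
        (((T.rod _ hu).right_inv (m z hz)).symm ▸ hz.1.2.2)), (rod_symm hu (m z hz)).1 ▸ hz.2⟩)
      (fun _ hw => (ld_pd (T.rod _ hu) (.inr (h hw.2))).contMDiffAt)
      (fun _ hw => ⟨⟨T.rod_mem_tor hu (.inr (h hw.2)), trivial, (T.yy_rod hu (.inr (h hw.2))).trans_lt
        (mem_ball_zero_iff.1 hw.1)⟩, mem_preimage.2 (mem_of_eq_of_mem (T.time_rod hu (.inr (h hw.2))) hw.2)⟩)
      fun z hz => (T.rod _ hu).right_inv (m z hz)
  refine (k.mono (inter_subset_inter_right _ (preimage_mono h')) inter_subset_left).dfm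
    (dfm_off (A := T.τ '' {w | ‖w.2‖ < δ}) (fun ⟨z, t⟩ hz => ⟨fun l => ?_, ?_⟩) hc (h' hr) hr)
    ((isOpen_lw hJ).inter isOpen_off) inter_subset_left
  · obtain ⟨w, rfl⟩ := (T.ext_mem_tor hz).1 l.1
    exact ⟨w, (T.yy_ext (T.τ_mem.1 hz) t).symm.trans_lt l.2.2, rfl⟩
  · rintro ⟨w, l, rfl⟩
    exact ⟨(T.ext_mem_tor hz).2 ⟨w, rfl⟩, trivial, (T.yy_ext (T.τ_mem.1 hz) t).trans_lt l⟩

/-- every line inside the arc has integral orders near the axis -/
theorem oc_lw (ha : IsWd a) (h : x < y) {κ : Type} [Fintype κ] [DecidableEq κ] {L : Ln E4 (X T (wd a)) κ}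
    (hL : L.On (𝓡 4) (dk T a x y)) : ∃ (W : Set _) (n : ℤ → ℤ), IsOpen W ∧ bx T a x y ⊆ W ∧ W ⊆ dk T a x y ∧
      OC T a W (L.F (𝓡 4)) fun j => n j := by
  have h' : (x : ℝ) + 1 ≤ y := by exact_mod_cast h
  let J := Ioo ((x : ℝ) + 3 / 4) (y + 1 / 4)
  have o := isOpen_lw (T := T) (a := a) (δ := 1 / 4) (isOpen_Ioo : IsOpen J)
  have s : lw T a J (1 / 4) ⊆ dk T a x y := fun z k => ⟨k.1.1, (Real.sqrt_lt' (by linarith)).2 (by
    obtain ⟨⟨k1, -, k2⟩, k3, k4⟩ : (_ ∧ _ ∧ T.yy _ z < _) ∧ _ < T.time _ z ∧ T.time _ z < _ := k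
    have := (T.eta_of_tor k1).1
    simp only [Tb.bs, cc]
    nlinarith [mul_pos (sub_pos.2 k3) (sub_pos.2 k4)])⟩
  have ax : ∀ z, z ∉ off T (wd a) → T.time (wd a) z ∈ J → z ∈ lw T a J (1 / 4) := fun z k l =>
    ⟨⟨tor_of_not_off k, trivial, (yy_axis k).trans_lt (by norm_num)⟩, l⟩
  obtain ⟨_, hb⟩ := ha.prim x
  have l := hL.mono s
  obtain ⟨S, hS⟩ := pic_lw (J' := Ioo ((x : ℝ) + 3 / 4) (x + 1)) (r := x + 7 / 8) hb isOpen_Ioo ordConnected_Ioo isOpen_Ioo
    (convex_Ioo _ _) ((Ioo_subset_Ioo_left (by linarith)).trans Ioo_subset_Jr) (Ioo_subset_Ioo_right (by linarith))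
    ⟨by linarith, by linarith⟩ κ L.p (LOn.of_ln l)
  obtain ⟨n, ψ, -, k⟩ := Cls19.exists_tl_wd o (fun z k _ z' l e => ax z' l (e ▸ k.2)) (fun i => by
    have : T.time (wd a) '' (lw T a J (1 / 4) \ off T (wd a)) = J :=
      Subset.antisymm (by rintro _ ⟨z, hz, rfl⟩; exact hz.1.2) fun t ht =>
        let ⟨z, o, e⟩ := Cls19.exists_axis (T := T) ha.loc t; ⟨z, ⟨ax z o (e ▸ ht), o⟩, e⟩
    exact this ▸ (ordConnected_Ioo.inter ordConnected_Ioo).isPreconnected)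
    (fun z k => ⟨l.sm z k, l.prj z k, l.tr z k⟩) hS
  have : ∀ j : ℤ, ∃ η, x < j → j ≤ y → dot η (a (j - 1)) = n (j - 1) ∧ dot η (a j) = n j := fun j => by
    by_cases c : x < j ∧ j ≤ y
    · obtain ⟨z, o, e⟩ := Cls19.exists_axis (T := T) ha.loc j
      have c1 : (x : ℝ) + 1 ≤ j := by exact_mod_cast c.1
      have c2 : (j : ℝ) ≤ y := by exact_mod_cast c.2
      exact (Cls19.tl_vch k (ax z o (e ▸ ⟨by linarith, by linarith⟩)) o e).imp fun _ a _ _ => a
    · exact ⟨0, fun a b => (c ⟨a, b⟩).elim⟩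
  choose η he using this
  have e : ∀ j, x ≤ j → j ≤ y → dot (η (max (x + 1) (min j y))) (a j) = n j := fun j c c' => by
    rcases c.eq_or_lt with rfl | c
    · simpa [h.le] using (he (x + 1) (by omega) h).1
    · rw [show max (x + 1) (min j y) = j by omega, (he j c c').2]
  refine ⟨_, fun j => dot (η (max (x + 1) (min j y))) (a j), o, fun z k => ⟨⟨k.1, trivial, k.2.2.2.trans_lt (by norm_num)⟩,
    Icc_subset_Ioo (by linarith) (by linarith) k.2.1⟩, s, oc_line (fun j => ⟨η (max (x + 1) (min j y)), ?_, rfl⟩) o l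
      (k.congr_m fun z k _ => eventually_of_mem (isOpen_Ioo.mem_nhds k.2) fun t ht => wm_congr (fun _ _ _ => rfl) e
        (Ioo_subset_Ioo (by linarith) (by linarith) ht))⟩
  by_cases c : x + 1 < j ∧ j ≤ y
  · rw [e _ (by omega) (by omega), show max (x + 1) (min j y) = j by omega, (he j (by omega) c.2).1]
  · rw [show max (x + 1) (min j y) = max (x + 1) (min (j - 1) y) by omega]

theorem prs_int (u : ℤ → ℤ) : ∃ m : ℤ, prs x y (fun j => d j) (fun j => u j) = m :=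
  ⟨∑ j ∈ Finset.Icc x y, d j * u j, by simp [prs]⟩

/-- **integrality** -/
theorem St.int (h : St T a x y s ε d' e f) (H : Sa T a α o O x y U) {κ : Type} [Fintype κ] [DecidableEq κ]
    {L : Ln E4 (X T (wd a)) κ} (hL : L.On (𝓡 4) (dk T a x y)) (i : Fin M) :
    ∃ m : ℤ, ip (𝓡 4) (-O) (L.F (𝓡 4)) (e i) = (2 * π) ^ 2 * m :=
  let ⟨_, n, k1, k2, _, k3⟩ := oc_lw h.iw h.lt hL
  let ⟨m, k⟩ := prs_int (x := x) (y := y) (d := d' i) n
  ⟨m, k ▸ (h.ts i).ip H k1 k2 k3⟩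

theorem dk_time {z : X T (wd a)} (k : z ∈ dk T a p q) : T.time (wd a) z ∈ Ioo (p : ℝ) (q + 1) := by
  have := abs_lt.1 ((T.abs_time_le (cc p q) z).trans_lt k.2)
  unfold cc at this
  exact ⟨by linarith [this.1], by linarith [this.2]⟩

theorem dk_mono (h1 : x ≤ p) (h2 : q ≤ y) : dk T a p q ⊆ dk T a x y := fun z k => ⟨k.1, by
  have l1 : (x : ℝ) ≤ p := by exact_mod_cast h1
  have l2 : (q : ℝ) ≤ y := by exact_mod_cast h2
  have : |cc p q - cc x y| ≤ (y - x) / 2 - (q - p) / 2 := abs_le.2 ⟨by unfold cc; linarith, by unfold cc; linarith⟩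
  exact (T.rr_le _ (cc p q) z).trans_lt (by linarith [show T.rr _ (cc p q) z < _ from k.2])⟩

theorem ex_ts {s t s' t' : ℤ} {n' d' : ℤ → ℤ} {ψ} (h : Ts T a s t n d φ) (h' : Ts T a s' t' n' d' ψ) {η : Z2}
    (e : ∀ j, p ≤ j → j ≤ q → n j - n' j = dot η (a j)) : Ex (𝓡 4) (dk T a p q) (φ - ψ) :=
  let ⟨β, b, _⟩ := exists_al h h' e
  ⟨β, fun z k => (b z k.1 (dk_time k)).1, fun z k => (b z k.1 (dk_time k)).2.2⟩

/-- a test cut along a ball -/
theorem Ts.cut (h : Ts T a x y n d φ) (l : p < q) (hu : Uni (a p) (a q)) :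
    ∃ n' d' ψ, Ts T a p q n' d' ψ ∧ Ex (𝓡 4) (dk T a p q) (φ - ψ) := by
  let η := dual (a p) (a q) (n p) (n q)
  have e : ∀ j, p ≤ j → j ≤ q → (if p < j ∧ j < q then n j - dot η (a j) else 0) = n j - dot η (a j) := fun j c c' => by
    split_ifs with k
    · rfl
    obtain rfl | rfl : j = p ∨ j = q := by omega
    exacts [(sub_eq_zero.2 (dual_left hu _ _).symm).symm, (sub_eq_zero.2 (dual_right hu _ _).symm).symm]
  obtain ⟨d', ψ, k, -⟩ := exists_ts (T := T) (n := fun j => if p < j ∧ j < q then n j - dot η (a j) else 0) h.iw l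
    (fun i => by
      by_cases c : p < i ∧ i ≤ q
      · obtain ⟨ζ, a1, a2⟩ := h.ch i
        exact ⟨ζ - η, by rw [dot_sub, a1]; exact (e _ (by omega) (by omega)).symm,
          by rw [dot_sub, a2]; exact (e _ (by omega) (by omega)).symm⟩
      · have u : ¬(p < i - 1 ∧ i - 1 < q) ∧ ¬(p < i ∧ i < q) := by omega
        exact ⟨0, by simp only [if_neg u.1]; simp, by simp only [if_neg u.2]; simp⟩)
    fun j c => if_neg (by omega)
  exact ⟨_, d', ψ, k, ex_ts h k (η := η) fun j c c' => by rw [e j c c', sub_sub_cancel]⟩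

/-- the sphere of the arc is exact in a ball -/
theorem St.exf (h : St T a x y s ε d' e f) (H : Sa T a α o O x y U) (h1 : x ≤ p) (h2 : q ≤ y) :
    Ex (𝓡 4) (dk T a p q) f := by
  obtain ⟨_, t, c, -⟩ := exists_ts (T := T) (n := 0) h.iw h.lt (fun _ => ⟨0, by simp, by simp⟩) fun _ _ => rfl
  obtain ⟨_, c', -⟩ := h.tf
  simpa using (ex_ts c' c (η := pq (a x)) fun j u u' => by simp [fz_eq h.hs (h1.trans u) (u'.trans h2)]).add
    (((h.ins H).ex t (c.oc _).cl (fun i => by simp [h.ie H (c.oc _), prs]) (by simp [h.fi H (c.oc _)])).mono (dk_mono h1 h2))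

theorem hz_dk (ha : IsWd a) (l : p < q) (hu : Uni (a p) (a q)) : IsOpen (dk T a p q) ∧ HZ (𝓡 4) 1 (dk T a p q) := by
  obtain ⟨n, k⟩ := Nat.exists_eq_succ_of_ne_zero (n := nv a p q) fun e => by
    have := hu.sq
    rcases pm_of_nv ha e le_rfl l.le with e | e <;> simp [e, dt, mul_comm] at this
  exact ⟨(hd_dk ha l k).1, (hd_dk ha l k).2.1⟩

end Crest.Agent.X212.Rs52
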