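import Crest.Agent.X212.Rs52.Abs

/-!
# Row 212, BR-RS (helper52), part Lat: the numbers of a ball-bounded part of the inside
-/

set_option autoImplicit false
set_option maxHeartbeats 400000
set_option linter.unusedSectionVars false
noncomputable section
open Set Function Matrix
open scoped ContDiff Manifold Real
open Crest.Agent.R208.F (Ext)

namespace Crest.Agent.X212.Rs52
open Dr59
open Rn83 (Ins orth ip_orth)

theorem off_zero {κ : Type} [Fintype κ] [DecidableEq κ] {m : κ → ℤ} {k l : κ} (h : m k = -∑ j, m j * m j) (e : l ≠ k) :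
    m l = 0 := by
  rw [← Finset.add_sum_erase _ _ (Finset.mem_univ k)] at h
  have a := Finset.single_le_sum (f := fun j => m j * m j) (fun j _ => mul_self_nonneg _)
    (Finset.mem_erase.2 ⟨e, Finset.mem_univ l⟩)
  have b : 0 ≤ m k * (m k + 1) := by rcases le_or_gt 0 (m k) with c | c <;> nlinarith
  exact mul_self_eq_zero.1 (le_antisymm (by linarith) (mul_self_nonneg _))

variable {E : Type} [NormedAddCommGroup E] [NormedSpace ℝ E] [FiniteDimensional ℝ E] [MeasurableSpace E]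
  [BorelSpace E] {H : Type} [TopologicalSpace H] {I : ModelWithCorners ℝ E H} [I.Boundaryless]
  {M : Type} [TopologicalSpace M] [ChartedSpace H M] [IsManifold I ∞ M] [T2Space M] [MeasurableSpace M]
  [BorelSpace M] [SecondCountableTopology M]
  {κ : Type} [Fintype κ] [DecidableEq κ] {o f F c g γ : M → Ext E} {D U : Set M} {e t : κ → M → Ext E}
  (h : Ins I o D D e (fun _ => -(2 * π) ^ 2) f)
include h

theorem ip_ins (hc : Cl I 2 D c) (h0 : ip I o c f = 0) (hg : Cs I 2 D g) :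
    ip I o c g = -∑ k, ip I o c (e k) * ip I o g (e k) / (2 * π) ^ 2 := by
  have := hg.ip_ex h.ori (h.ex _ (hc.sub (cl_sum fun i _ => ((h.cs i).on D).smul _))
    (orth h.ori h.cs h.gram (fun i => (h.neg i).ne) hc.sm) (by simp [ip_orth h.ori h.cs hc.sm _ h.cf, h.ef, h0]))
  rw [ip_orth h.ori h.cs hc.sm _ hg, sub_eq_zero] at this
  rw [this, ← Finset.sum_neg_distrib]
  exact Finset.sum_congr rfl fun k _ => by rw [ip_comm (h.cs k).cl.dg]; ring

/-- **the numbers** -/
theorem num_abs (hU : U ⊆ D) (hf : Ex I U f) (t1 : ∀ k, Cs I 2 U (t k)) (t2 : ∀ k, Ex I U (e k - t k))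
    (t3 : ∀ k l, ∃ m : ℤ, ip I o (t k) (e l) = (2 * π) ^ 2 * m) (hF : Cl I 2 D F) (F0 : ip I o F f = 0) {Z : Finset κ}
    (F1 : ∀ k, |ip I o F ((2 * π)⁻¹ • e k) / (2 * π)| = if k ∈ Z then 0 else 1) (g1 : Cs I 2 U γ)
    {a : κ → ℝ} (a0 : ∀ k ∈ Z, a k ≠ 0) (g3 : Ex I D (γ - ∑ k ∈ Z, a k • (2 * π)⁻¹ • e k)) {ι : Type} [Fintype ι]
    [DecidableEq ι] {u : ι → M → Ext E} {d : ι → ℝ} (hu : Lat I o U U u (diagonal d)) : {n | 0 < d n}.ncard = 0 ∧
      ∑ n, (ip I o F (u n) / (2 * π)) ^ 2 / d n - (({n | 0 < d n}.ncard : ℝ) - {n | d n < 0}.ncard) = Z.card := by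
  have p := Real.two_pi_pos.ne'
  have g2 : ∀ k ∈ Z, ip I o γ (e k) ≠ 0 := fun k b => by
    have s := fun l => (((h.cs l).on D).smul (2 * π)⁻¹).smul (a l)
    rw [(h.cs k).ip_coh h.ori (g1.on D).sm (cl_sum fun l _ => s l).sm g3, (h.cs k).ip_sum h.ori fun l _ => (s l).sm]
    simp [ip_smul, h.gram, diagonal_apply, b, a0 k b, Real.pi_ne_zero]
  have k0 : ∀ {c}, Cs I 2 U c → ip I o c f = 0 := fun k => (ip_comm k.cl.dg _).trans (k.ip_ex h.ori hf)
  have k1 : ∀ {c}, Cs I 2 U c → ∀ k, ip I o c (e k) = ip I o c (t k) := fun {c} k l => by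
    rw [ip_comm k.cl.dg, ip_comm k.cl.dg, k.ip_coh h.ori ((h.cs l).on U).sm ((t1 l).on U).sm (t2 l)]
  have k2 : ∀ {c c'}, Cs I 2 U c → Cs I 2 U c' → _ := fun k k' => ip_ins h (k.on D) (k0 k) (k'.mono hU)
  choose m hm using t3
  have m0 : ∀ k l, l ≠ k → m k l = 0 := fun k l => off_zero (Int.cast_injective (α := ℝ) (by
    have := (hm k k).symm.trans ((k1 (t1 k) k).trans (k2 (t1 k) (t1 k)))
    simp only [hm, mul_assoc ((2 * π) ^ 2), mul_div_cancel_left₀ _ (pow_ne_zero 2 p), mul_left_comm _ ((2 * π) ^ 2),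
      ← Finset.mul_sum, ← mul_neg] at this
    exact_mod_cast mul_left_cancel₀ (pow_ne_zero 2 p) this))
  have d0 : ∀ n, d n ≠ 0 := fun n => Finset.prod_ne_zero_iff.1 (det_diagonal.symm.trans_ne hu.det) n (Finset.mem_univ _)
  have d1 : ∀ n, d n = -∑ k, ip I o (u n) (e k) * ip I o (u n) (e k) / (2 * π) ^ 2 := fun n =>
    (diagonal_apply_eq d n).symm.trans ((hu.gram n n).symm.trans (k2 (hu.cs n) (hu.cs n)))
  have d2 : ∀ n, d n < 0 := fun n => lt_of_le_of_ne (d1 n ▸ neg_nonpos.2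
    (Finset.sum_nonneg fun k _ => div_nonneg (mul_self_nonneg _) (sq_nonneg _))) (d0 n)
  have q : ∀ k l, ∑ n, ip I o (u n) (e k) * ip I o (u n) (e l) / d n = (2 * π) ^ 2 * m k l := fun k l => by
    rw [← hm, k1 (t1 k), hu.ip_eq ((t1 k).on U) (t1 l), inv_eq_left_inv (B := diagonal fun n => (d n)⁻¹) (by simp [d0])]
    exact Finset.sum_congr rfl fun n _ => by
      rw [mulVec_diagonal, k1 (hu.cs n), k1 (hu.cs n), ip_comm (hu.cs n).cl.dg, ip_comm (hu.cs n).cl.dg, div_eq_mul_inv]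
      ring
  have q1 : ∑ k, (m k k : ℝ) = -Fintype.card ι := by
    have : ∀ k, (m k k : ℝ) = ∑ n, ip I o (u n) (e k) * ip I o (u n) (e k) / (2 * π) ^ 2 / d n := fun k => by
      simp only [div_right_comm _ ((2 * π) ^ 2), ← Finset.sum_div, q, mul_div_cancel_left₀ _ (pow_ne_zero 2 p)]
    simp only [this]
    rw [Finset.sum_comm, Finset.sum_congr rfl fun n _ => show _ = (-1 : ℝ) by
      rw [← Finset.sum_div, ← neg_eq_iff_eq_neg.2 (d1 n), neg_div, div_self (d0 n)]]
    simp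
  have q2 : ∀ k ∈ Z, (m k k : ℝ) = -1 := fun k a => by
    have := (k1 g1 k).trans (k2 g1 (t1 k))
    rw [Finset.sum_eq_single k (fun l _ b => by simp [hm, m0 k l b]) (by simp), hm] at this
    field_simp at this
    exact mul_left_cancel₀ (g2 k a) (by linarith)
  have q3 : ∑ n, (ip I o F (u n) / (2 * π)) ^ 2 / d n = ∑ k, (ip I o F (e k) / (2 * π) ^ 2) ^ 2 * m k k := by
    have : ∀ n, (ip I o F (u n) / (2 * π)) ^ 2 / d n = ∑ k, ∑ l, ip I o F (e k) * ip I o F (e l) / (2 * π) ^ 6 *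
        (ip I o (u n) (e k) * ip I o (u n) (e l) / d n) := fun n => by
      rw [ip_ins h hF F0 ((hu.cs n).mono hU), neg_div, neg_sq, sq, Finset.sum_div, Finset.sum_mul_sum, Finset.sum_div]
      refine Finset.sum_congr rfl fun k _ => ?_
      rw [Finset.sum_div]
      exact Finset.sum_congr rfl fun l _ => by ring
    simp only [this]
    rw [Finset.sum_comm]
    refine Finset.sum_congr rfl fun k _ => ?_
    rw [Finset.sum_comm, Finset.sum_eq_single k (fun l _ b => by simp [← Finset.mul_sum, q, m0 k l b]) (by simp),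
      ← Finset.mul_sum, q]
    field_simp
  have z : {n | 0 < d n} = ∅ := eq_empty_of_forall_notMem fun n a => (d2 n).not_gt a
  refine ⟨by simp [z], ?_⟩
  rw [z, eq_univ_of_forall (s := {n | d n < 0}) d2, ncard_univ, Nat.card_eq_fintype_card, q3, ncard_empty, Nat.cast_zero,
    zero_sub, ← q1, ← Finset.sum_sub_distrib, Finset.sum_congr rfl fun k _ => show _ = if k ∈ Z then (1 : ℝ) else 0 by
      have := F1 k
      rw [ip_smul_right, inv_mul_eq_div, div_div, ← sq] at this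
      rw [← sq_abs, this]
      split_ifs with a <;> simp [q2, *]]
  simp

end Crest.Agent.X212.Rs52
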