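import Crest.Agent.X212.Rs52.Num
import Crest.Agent.X212.Rs83.Sim

/-!
# Row 212, BR-RS (helper52): `rs : Br55.RsStmt L Rf65.RS`
-/

set_option autoImplicit false
set_option maxHeartbeats 400000
set_option linter.unusedSectionVars false
noncomputable section
open Set Function Module Matrix Filter Topology
open scoped ContDiff Manifold Real
open Crest.Agent.R208.F (Ext)

namespace Crest.Agent.X212.Rs52
open Dr59 M G75 Wd38 Nm96 Num57 Br55 Ds83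
open Sid48 (sd sd_false_union exists_lo)
open Rf65 (lsI QD)
open scoped Cap57
attribute [local instance] nbMs nbBs nbSc

variable {Γ : Nm} {κ lam : Type} [Fintype κ] [Fintype lam] [DecidableEq lam] {C : Cx Γ} {G : Tab C.kd κ} {P : Pm Γ}
  (L : LP C G P lam) {D : Dt Γ} (h : D.OK P) (μ : ℤ × ℤ) {x y : ℤ}

theorem wall_eq (a : D.A) {b : Bs} (e : a.1 = b) : b.OK D.F.w ∧
    (∀ s, ((L.scn h μ).M.sys.w a).sd s = sd (C.rz h.ok.w) b s) ∧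
    hf (L.scn h μ).M a false = (C.rz h.ok.w).Z b (Iio (b.r0 + 1 / 4)) := by
  obtain ⟨_, ha, rfl⟩ : ∃ c hc, a = ⟨c, hc⟩ := ⟨_, _, rfl⟩
  subst e
  have o := (h.ad _ ha).1.1
  exact ⟨o, bn_sd _ o, (congrArg₂ (· ∪ ·) (bn_sd _ o false) (bn_band _ o)).trans (sd_false_union _ _)⟩

variable (hr : ((Bs.rA x y : Bs) : Wl) ∈ D.A) (f : ∀ l ∈ D.F.fz ∪ D.F.ls, (Bs.rA x y).Far l)
include f

theorem mem_lsI {l : D.A} : l ∈ lsI (L.scn h μ) ⟨_, hr⟩ ↔ IsL {l ∈ D.F.ls | x < l.lo ∧ l.hi < y} l.1 := by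
  obtain ⟨o, e, -⟩ := wall_eq L h μ ⟨_, hr⟩ rfl
  obtain ⟨⟨b, t⟩, hl⟩ := l
  refine ((@Finset.mem_filter _ _ (_) _ _).trans ?_).trans (and_congr_right fun _ => Finset.mem_filter).symm
  refine ⟨fun ⟨k, k'⟩ => ?_, fun ⟨k1, k2, k3, k4⟩ => ⟨Finset.mem_filter.2 ⟨Finset.mem_univ _, k1, k2⟩, ?_⟩⟩
  · obtain ⟨rfl, c⟩ : t = [] ∧ _ := (Finset.mem_filter.1 k).2
    obtain ⟨o', -, e'⟩ := wall_eq L h μ ⟨_, hl⟩ (b := b) rfl
    obtain ⟨z, a, -⟩ := exists_lo (C.rz h.ok.w) o'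
    have a1 := Rz.bd_II _ a
    have a2 := Rz.D_II _ ((e false).le (k' (e'.ge (Sid48.Z_mono _ _ Ioo_subset_Iio_self a))))
    have g := h.nin _ hr _ c
    refine ⟨rfl, c, ?_⟩
    rcases f _ (Finset.mem_union_right _ c) with f | f | ⟨-, f, f', -⟩ | ⟨-, f, f', -⟩
    · exact (Rz.II_disj f a2 a1).elim
    · exact (Rz.II_disj f a1 a2).elim
    · exact ⟨f, f'⟩
    · obtain ⟨z, rfl, -⟩ := h.ok.ls _ c
      have := o.1.lt
      simp only [Bs.lo, Bs.hi] at f f'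
      exact (g (by simp only [Bs.lo]; congr 1 <;> omega)).elim
  · obtain rfl : t = [] := k1
    obtain ⟨z, rfl, -⟩ := h.ok.ls _ k2
    exact (wall_eq L h μ ⟨_, hl⟩ rfl).2.2.le.trans fun _ a => (e false).ge (D_in _ o.1 k3 k4 a).1

theorem card_lsI : (lsI (L.scn h μ) ⟨_, hr⟩).card = Finset.card {l ∈ D.F.ls | x < l.lo ∧ l.hi < y} :=
  Finset.card_bij (fun a _ => a.1.b) (fun _ k => ((mem_lsI L h μ hr f).1 k).2) (fun ⟨⟨_, _⟩, _⟩ k ⟨⟨_, _⟩, _⟩ k' e => by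
    obtain ⟨rfl, -⟩ : _ = [] ∧ _ := (mem_lsI L h μ hr f).1 k
    obtain ⟨rfl, -⟩ : _ = [] ∧ _ := (mem_lsI L h μ hr f).1 k'
    cases e
    rfl) fun b k => ⟨⟨b, h.ls b (Finset.mem_filter.1 k).1⟩, (mem_lsI L h μ hr f).2 ⟨rfl, k⟩, rfl⟩

omit f in
/-- the flux through the cut of a lens wall -/
theorem flux_ls (hc : ∀ s, Csm97.Dat L.Lm.X.I (L.Lm.cut s) ∧ Cut54.Deg (fun θ r => (L.Lm.N s).p ((L.Lm.cut s).γ θ r)) 2)
    (i : D.L) (l : D.A) (hl : IsL D.F.ls l.1) {c : (L.scn h μ).X.M → Ext (L.scn h μ).X.E}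
    (k : Cl (L.scn h μ).X.I 2 (((L.scn h μ).M.sys.w l).sd false) c) {r : ℝ}
    (e : Ex (L.scn h μ).X.I (((L.scn h μ).M.sys.w l).sd false) (c - r • Fp _ (L.W h.h0 (h.l0 i) μ).p)) :
    Hol14.flux (L.scn h μ).X.I ((L.scn h μ).cut l i) c = r * (4 * π) := by
  have : CompactSpace (C.X h.ok.w).mf.M := (C.rz h.ok.w).cpt
  have a := L.rel h.h0 i.1 (h.uw l) hl
  have b := L.ins h.h0 (h.l0 i) μ (h.uw l) hl
  have s : ∀ θ t, (L.Lm.cut (sgl l.1.b i.1)).γ θ t ∈ (L.Lm.M.sys.w ()).sd false := fun θ t => a.sub ⟨(θ, t), rfl⟩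
  rw [← L.p] at e
  exact flux_cut (L.I h.h0 (h.uw l) hl).ψ (hc _).1 a.γ (fun θ t => .inl (s θ t)) b.sub b.uni (hc _).2
    (L.N h.h0 (h.l0 i) μ).ok (Wall.op_sd _ _) (fun θ t => (a.γ θ t).symm ▸
      ((L.I h.h0 (h.uw l) hl).sd () false _ (b.sub (.inl (s θ t)))).2 (s θ t)) k e

omit f
variable {L}

/-- **BR-RS** -/
theorem rs (hG : Gl9.RR (G.g .rr).e) (hL : NatL L)
    (hc : ∀ s, Csm97.Dat L.Lm.X.I (L.Lm.cut s) ∧ Cut54.Deg (fun θ r => (L.Lm.N s).p ((L.Lm.cut s).γ θ r)) 2) :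
    RsStmt L Rf65.RS := by
  rintro D h μ i ⟨r, hr⟩ e₀ e₁ x y b b' (rfl : r = _) he₀ he₁
    ⟨N, ε, Z, a, c, c', hN, t, gr, k, a1, z1, z2, hls, e1, e2, e3, e4, e5, e6, e7, e8, e9, e10, od⟩ ok f hs -
  obtain ⟨o, sR, -⟩ := wall_eq L h μ ⟨_, hr⟩ rfl
  have sF : ((L.scn h μ).M.sys.w ⟨_, hr⟩).sd false = (C.rz h.ok.w).D x y (Iio ((y - x) / 2)) := sR false
  obtain ⟨s, d, e, g, s1, hf, S⟩ := exists_stw C h.ok.w (n := cp i.1 μ) o ok hN t gr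
  have I := ins_w (C.rz h.ok.w) S o.1
  have sr := dk_src (C.rz h.ok.w) o.1 o.1 le_rfl le_rfl
  obtain ⟨ν, _, Ls, hLs⟩ := pad (I := (C.X h.ok.w).mf.I) (M := (C.X h.ok.w).mf.M) (U := (C.rz h.ok.w).D x y (Iio ((y - x) / 2)))
    (f := fun k => psh (cB (C.rz h.ok.w) o.1) (e k)) fun k =>
      let ⟨K, k1, k2, k3⟩ := (S.ts k).rl S.op fun _ => bx_dk o.1.lt
      ⟨_, k1.image_of_continuousOn ((cB _ o.1).contMDiffOn_toFun.continuousOn.mono (k2.trans sr)),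
        (image_mono k2).trans (dk_img _ o.1 o.1 le_rfl le_rfl).le, k3.psh _ k1 (k2.trans sr)⟩
  have cd := card_lsI L h μ hr f
  obtain ⟨τ, τ1, τ2⟩ : ∃ τ : ℤ, τ * τ = 1 ∧ ∀ l ∈ lsI (L.scn h μ) ⟨_, hr⟩, ∀ k ∈ Z, Hol14.flux (L.scn h μ).X.I
      ((L.scn h μ).cut l i) ((2 * π)⁻¹ • psh (cB (C.rz h.ok.w) o.1) (e k)) = (τ * a k : ℤ) := by
    rcases (lsI (L.scn h μ) ⟨_, hr⟩).eq_empty_or_nonempty with u | ⟨l, u⟩
    · exact ⟨1, rfl, by simp [u]⟩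
    obtain ⟨u1, u2⟩ := (mem_lsI L h μ hr f).1 u
    obtain ⟨u2, u3, u4⟩ := Finset.mem_filter.1 u2
    obtain ⟨z, u5, u6, -, u7⟩ := h.ok.ls _ u2
    have u8 := (h.lok _ i.2).ls _ u2
    have u9 := (hls _ u2 u3 u4).2
    rw [u5] at u3 u4 u8 u9
    obtain ⟨τ, τ1, τ2⟩ := lens_w (C.rz h.ok.w) S o.1 (L.W h.h0 (h.l0 i) μ) (fun i => (t i).1) (z := z) u3 u4 u6 u7 u8.1 u8.2.1 u8.2.2
    refine ⟨τ, τ1, fun l' u' k hk => ?_⟩
    obtain rfl := Finset.card_le_one.1 (by omega) l u l' u'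
    obtain ⟨r, r1, r2⟩ := τ2 k
    have sl := (wall_eq L h μ l (b := .lA z (z + 3)) (by rw [← u5, ← u1])).2.1 false
    rw [flux_ls L h μ hc i l ⟨u1, u2⟩ (((I.cs k).on _).smul _) (by rw [sl]; exact r1), r2, u9 k hk, Int.cast_mul]
  choose p q w1 w2 w3 w4 using fun β : Bool => show ∃ p q, (cond β e₁ e₀).1 = Bs.sA p q ∧ x < p ∧ q < y ∧
      Sup p q (cmb Z (fun k => τ * a k) ε (τ * cond β c' c) (fib D.F.w x y)) by
    have v : ∀ {b : Bs} {c : ℤ}, b.arc → b.pin → x < b.lo → b.hi < y → Sup b.lo b.hi (cmb Z a ε c (fib D.F.w x y)) →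
        ∃ p q, b = .sA p q ∧ x < p ∧ q < y ∧ Sup p q (cmb Z (fun k => τ * a k) ε (τ * c) (fib D.F.w x y)) :=
      fun {b c} k1 k2 k3 k4 k5 => by
        cases b <;> first | exact k1.elim | exact k2.elim | skip
        exact ⟨_, _, rfl, k3, k4, fun j l => by
          simpa only [cmb, mul_add, Finset.mul_sum, mul_assoc, mul_zero] using
            (k5 j l).imp (congrArg (τ * ·)) (congrArg (τ * ·))⟩
    cases β
    · obtain ⟨p, q, rfl, k⟩ := v e1 e2 e3 e4 e9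
      exact ⟨p, q, he₀, k⟩
    · obtain ⟨p, q, rfl, k⟩ := v e5 e6 e7 e8 e10
      exact ⟨p, q, he₁, k⟩
  have v := fun β => wall_eq L h μ _ (w1 β)
  have τo : Odd τ := (Int.odd_mul.1 (τ1 ▸ odd_one)).1
  choose η η1 η2 η3 η4 using fun β => eta_w (C.rz h.ok.w) o S s1 (v β).1 (w2 β) (w3 β)
  obtain ⟨γ, α, m, g1, g2, g3, g4, g5, g6, g7⟩ := gam_w (C.rz h.ok.w) o S (L.W h.h0 (h.l0 i) μ) s1 hf k
    (a := fun k => τ * a k) (fun k hk => by rw [abs_mul, a1 k hk, mul_one]; exact Int.isUnit_iff_abs_eq.1 (.of_mul_eq_one _ τ1))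
    (fun i => (t i).1) (b := fun β => τ * cond β c' c) (fun β => ⟨(v β).1.1, w2 β, w3 β, w4 β⟩) (mul_sub τ _ _ ▸ τo.mul od)
  let Q : QD (L.scn h μ) ⟨_, hr⟩ fun β => cond β e₁ e₀ :=
    ⟨thR C.kd, piR C.kd, Fin N, ν, Ls, Z, fun k => τ * a k, η, γ, α, m⟩
  have q1 : Q.ε = fun k => (2 * π)⁻¹ • psh (cB (C.rz h.ok.w) o.1) (e k) := funext fun k => congrArg _ (hLs k).2
  have sm := fun β => Rs83.sim (C.rz h.ok.w) x y _ o (v β).1 trivial trivial (w2 β) (w3 β)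
  have lm := fun j => (congrArg abs (lam_w _ S o.1 (L.W h.h0 (h.l0 i) μ) (fun i => (t i).1) j)).trans (k j)
  have a2 : ∀ k ∈ Z, |τ * a k| = 1 := fun k hk => by
    rw [abs_mul, a1 k hk, mul_one]; exact Int.isUnit_iff_abs_eq.1 (.of_mul_eq_one _ τ1)
  refine ⟨Q, Ds83.rw h μ i hr hG hL ok f, fun β => ⟨?_, ?_, ?_⟩, fun σ ⟨p, p1, _, p2⟩ q a ha => ?_, sR false ▸ (sm false).1,
    fun β => sR false ▸ (v β).2.1 true ▸ (sm β).2, fun k => sF ▸ (hLs k).1, q1 ▸ gram I,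
    q1 ▸ (L.p h.h0 (h.l0 i) μ ▸ lm :), a2,
    ⟨cd ▸ z1, z2⟩, q1 ▸ τ2, sF ▸ η1, fun β => (v β).2.2 ▸ η2 β, fun β u k => η3 β u k.1 k.2,
    fun w k => ?_, fun β => (v β).2.1 false ▸ g1 β, q1 ▸ sF ▸ g2, sF ▸ g3, sF ▸ g4,
    fun u _ => g5 u, g6, sF ▸ (L.p h.h0 (h.l0 i) μ ▸ g7 :), fun _ _ _ K hK j => q1 ▸ int_w _ S o.1 (sF ▸ hK) j,
    fun β _ _ _ u => num_w _ S o.1 (L.W h.h0 (h.l0 i) μ) hf (v β).1 (w2 β) (w3 β) lm (g1 β)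
      (fun k hk => Int.cast_ne_zero.2 (abs_ne_zero.1 ((a2 k hk).trans_ne one_ne_zero))) ?_ ?_⟩
  · change (cond β e₁ e₀).1.b.ty _ = _
    rw [w1 β]
    rfl
  · exact Rz.mark_cmp _ _ _ _ (w1 β ▸ .bs (.inr (.inr (.inl ⟨trivial, w2 β, w3 β, trivial⟩))))
  · exact (v β).2.2.le.trans fun _ a => sF.ge (D_in _ o.1 (w2 β) (w3 β) a).1
  · refine (hs p p1 (p2 _ q) _ (p2 a ha)).imp Subtype.ext fun c => ?_
    rcases c with c | c | c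
    exacts [.inl ⟨false, Subtype.ext c⟩, .inl ⟨true, Subtype.ext c⟩, .inr ((Rz.range_bn _ _ _).le.trans
      ((out_sd _ (h.ad _ a.2).1.1 c.1 c.2 o).trans (bn_sd _ o true).ge))]
  · rw [sF] at k
    rw [q1, sF]
    exact span (I := (C.X h.ok.w).mf.I) (M := (C.X h.ok.w).mf.M) I (η1 false) (η4 false) k
  · cases β
    · exact g2
    · exact (Ex.symm ⟨α, g3.1, g4⟩).trans g2
  · exact L.p h.h0 (h.l0 i) μ ▸ (Eq.subst (motive := fun U => (L.scn h μ).Nb i U _ _ _) ((v β).2.1 false) u :)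

end Crest.Agent.X212.Rs52
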