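import Crest.Agent.X212.Rs52.Wrd
import Crest.Agent.X212.Rs52.Int
import Crest.Agent.X212.Rs52.Lat

/-!
# Row 212, BR-RS (helper52), part Num: integrality and the numbers inside a pinch arc, in a word
-/

set_option autoImplicit false
set_option maxHeartbeats 400000
set_option linter.unusedSectionVars false
noncomputable section
open Set Function Module Matrix
open scoped ContDiff Manifold Real
open Crest.Agent.R208.F (Ext)

namespace Crest.Agent.X212.Rs52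
open Dr59 M Wd38 Nm96 Num57
open Cyl58 hiding sph
open Rod53 hiding Uni X rho
open Line51 hiding tp Cs
open scoped Cap57
attribute [local instance] nbMs nbBs nbSc

variable {Γ : Nm} {C : Cx Γ} {Λ : NmL Γ} {L : LCx C Λ} {w : Shp Γ} {hw : w.OK} {X : TP V4}
  (R : Rz C hw X) {x y s p q : ℤ} {n : Wd38.Wt} {lam : Type} [Fintype lam] {N : ℕ} {ε : Fin N → Wd38.Wt}
  {d : Fin N → ℤ → ℤ} {e : Fin N → XC C w x y → Ext E4} {f : XC C w x y → Ext E4} (S : SW C w x y s ε d e f) (h : w.Rg x y)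
include S

/-- **integrality** -/
theorem int_w {κ : Type} [Fintype κ] [DecidableEq κ] {K : Ln X.mf.E X.mf.M κ}
    (hK : K.On X.mf.I (R.D x y (Iio ((y - x) / 2)))) (i : Fin N) :
    ∃ m : ℤ, ip X.mf.I (-R.O) (K.F X.mf.I) ((2 * π)⁻¹ • psh (cB R h) (e i)) = 2 * π * m := by
  have sr := dk_src R h h le_rfl le_rfl
  rw [← dk_img R h h le_rfl le_rfl] at hK
  obtain ⟨m, k⟩ := S.int (saO C w x y) (hK.pull (pd_mp _ sr)) i
  refine ⟨m, ?_⟩
  rw [ip_smul_right, ip_w R h (S.cs i), ← (S.cs i).ip_congr fun _ => hK.F_pull (pd_open _ S.op sr) S.op (pd_mp _ sr), k]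
  field_simp

theorem lam_w (W : WL L R n lam) (t : ∀ i, TOK w (ε i)) (j : Fin N) : ip X.mf.I (-R.O) (Fp X.mf W.p)
    ((2 * π)⁻¹ • psh (cB R h) (e j)) / (2 * π) = pr w x y n (ε j) := by
  have tn : TOK w n := ⟨W.ok.rod, W.ok.eq, W.ok.neg⟩
  have := (ip_w R h (S.cs j) _).trans (S.ie (saO C _ x y) (oc_mono (oc_W W h) (dk_tm R h h le_rfl le_rfl)) j)
  rw [S.pe j _ (Rn83.tra_bn hw tn h), Rn83.sl_bn hw tn (t j) h] at this
  rw [ip_smul_right, this]
  field_simp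

/-- **the numbers** -/
theorem num_w (W : WL L R n lam) (hf : n.bn x y x = s * n.bn x y y) (o : (Bs.sA p q).OK w) (h1 : x < p) (h2 : q < y)
    {Z : Finset (Fin N)} (F1 : ∀ k, |ip X.mf.I (-R.O) (Fp X.mf W.p) ((2 * π)⁻¹ • psh (cB R h) (e k)) / (2 * π)| =
      if k ∈ Z then 0 else 1) {γ} (g1 : Cs X.mf.I 2 (R.D p q (Iio ((q - p) / 2))) γ) {a : Fin N → ℝ} (a0 : ∀ k ∈ Z, a k ≠ 0)
    (g2 : Ex X.mf.I (R.D x y (Iio ((y - x) / 2))) (γ - ∑ k ∈ Z, a k • (2 * π)⁻¹ • psh (cB R h) (e k)))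
    {β sg l2 : ℝ} (k : Br55.NbX X.mf (-R.O) W.p (R.D p q (Iio ((q - p) / 2))) β sg l2) : β = 1 ∧ l2 - sg = Z.card := by
  obtain ⟨ι, _, _, u, c, hu, rfl, rfl, rfl⟩ := k
  have H := saO C w x y
  have lt := o.1.lt
  have un : Rod53.Uni (w.bz x y p) (w.bz x y q) := by
    rw [bz_r hw h h1.le (by omega), bz_l hw h (by omega) h2.le]
    exact o.2
  obtain ⟨op, hz⟩ := hz_dk (T := C.T (w.kn x)) S.iw lt un
  have sr := dk_src R h o.1 h1.le h2.le
  have im := dk_img R h o.1 h1.le h2.le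
  have mo := dk_mono (T := C.T (w.kn x)) (a := w.bz x y) h1.le h2.le
  have ex : ∀ {g}, Ex (𝓡 4) _ g → Ex X.mf.I _ (psh (cB R h) g) := fun k =>
    im ▸ ex_pd (cB R h) op sr (k.congr fun _ l => pm_psh _ (sr l) _)
  choose n' d' t t1 t2 using fun i => (S.ts i).cut lt un
  have := num_abs (ins_w R S h) (im ▸ dk_img R h h le_rfl le_rfl ▸ image_mono mo) (ex (S.exf H h1.le h2.le))
    (t := fun i => psh (cB R h) (t i)) (fun i => im ▸ ((t1 i).cs.mono fun _ => bx_dk lt).psh _ sr)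
    (fun i => psh_sub (cB R h) _ _ ▸ ex (t2 i)) (fun i j => by
      rw [ip_w2 R h (S.cs j), S.ie H ((t1 i).oc _)]
      exact (prs_int _).imp fun _ k => congrArg _ k) ((W.ln.cl_F isOpen_univ).mono (subset_univ _)) (by
      rw [ip_w R h S.cf]
      exact (S.fi H (oc_mono (oc_W W h) (dk_tm R h h le_rfl le_rfl))).trans (by simp [hf])) F1 g1 a0 g2 hu
  rw [Nat.le_zero.1 (bd_zero.2 (im ▸ (hz_pd (cB R h) op sr).2 hz)).finrank_le]
  exact ⟨by simp [this.1], this.2⟩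

end Crest.Agent.X212.Rs52
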