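import Crest.Agent.X212.Rs52.Tst
import Crest.Agent.X212.Rs52.Gen

/-!
# Row 212, BR-RS (helper52), part Rod: the inside of an `S¹ × S²` arc in a rod manifold

* `St` (the tests of the exceptional classes and of the sphere), `St.ins`, `St.ref`, `ex_one`, `band_al`, `band_ar`.
-/

set_option autoImplicit false
set_option maxHeartbeats 400000
set_option linter.unusedSectionVars false
set_option linter.style.haveILetI false

open Set Filter Topology Function Module MeasureTheory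
open scoped ContDiff Manifold Real
open Crest.Agent.R208 Crest.Agent.R208.FI
open Crest.Agent.R208.F hiding wd
open Crest.Agent.X212.Int54 hiding dt pr kap tp_pr pr_eq cAt_pr pm_pr kap_ne sigmaCompact sl
open Crest.Agent.X212.Line51 hiding tp Uni Cs
open Crest.Agent.X212.Orx52 Crest.Agent.X212.Rod53 Crest.Agent.X212.Pj41 Crest.Agent.X212.Dr59
open Crest.Agent.X212.Rn83 (sl Ins ex_of_pair)
open Crest.Agent.X212.Wd38 (cc)
open Crest.Agent.X212.Lab56 (Sc)
open Crest.Agent.X212.Glue52 (dir)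

noncomputable section

namespace Crest.Agent.X212.Rs52

section ari

variable {a : ℤ → Z2} {x y s : ℤ}

theorem ch_ite {p : ℤ → Prop} [DecidablePred p] (η : Z2) (h : ∀ i, ¬p i → p (i - 1) ∨ p (i + 1) → dot η (a i) = 0) :
    CH a fun j => if p j then dot η (a j) else 0 := fun i => by
  by_cases h1 : p (i - 1) <;> by_cases h2 : p i
  · exact ⟨η, by simp [h1], by simp [h2]⟩
  · exact ⟨η, by simp [h1], by simp [h2, h i h2 (.inl h1)]⟩
  · exact ⟨η, by simp [h1, h (i - 1) h1 (.inr (by simpa using h2))], by simp [h2]⟩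
  · exact ⟨0, by simp [h1], by simp [h2]⟩

theorem dot_pq (u v : Z2) : dot (pq u) v = dt u v := by simp [dot, pq, dt]; ring

/-- the orders of the sphere of the arc -/
def fz (a : ℤ → Z2) (x y j : ℤ) : ℤ := if x < j ∧ j < y then dot (pq (a x)) (a j) else 0

theorem pq_end (hs : a y = s • a x) : dot (pq (a x)) (a x) = 0 ∧ dot (pq (a x)) (a y) = 0 := by
  simp [hs, dot, pq, mul_comm, mul_left_comm]

theorem fz_eq (hs : a y = s • a x) {j : ℤ} (h1 : x ≤ j) (h2 : j ≤ y) : fz a x y j = dot (pq (a x)) (a j) := by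
  unfold fz
  split_ifs with k
  · rfl
  · obtain rfl | rfl : j = x ∨ j = y := by omega
    exacts [(pq_end hs).1.symm, (pq_end hs).2.symm]

theorem ch_fz (hs : a y = s • a x) : CH a (fz a x y) := ch_ite _ fun i h k => by
  obtain rfl | rfl : i = x ∨ i = y := by omega
  exacts [(pq_end hs).1, (pq_end hs).2]

theorem exists_h0 (ha : IsWd a) (h : x ≤ y) {n : ℕ} (hN : nv a x y = n + 1) : ∃ h0, CH a h0 ∧ h0 x = 1 ∧ h0 y = 0 := by
  obtain ⟨c, c1, c2, u, k, -⟩ := exists_first h hN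
  obtain ⟨t, ht⟩ : ∃ t, dot (dual (a (c - 1)) (a c) t 0) (a x) = 1 := by
    rcases pm_of_nv ha k le_rfl (by omega) with e | e
    · exact ⟨1, by rw [e, dual_left u]⟩
    · exact ⟨-1, by rw [e, dot_neg', dual_left u, neg_neg]⟩
  refine ⟨_, ch_ite (p := (· < c)) (dual (a (c - 1)) (a c) t 0) fun i h k => ?_, by simp [c1, ht], by simp [c2]⟩
  obtain rfl : i = c := by omega
  exact dual_right u _ _

end ari

variable {EN HN : Type} [NormedAddCommGroup EN] [NormedSpace ℝ EN] [FiniteDimensional ℝ EN]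
  [TopologicalSpace HN] {IN : ModelWithCorners ℝ EN HN} [IN.Boundaryless]
  {N : Type} [TopologicalSpace N] [ChartedSpace HN N] [IsManifold IN ∞ N] [T2Space N] [CompactSpace N] {T : Tb IN N}
  {a : ℤ → Z2} {x y s t : ℤ} {n : ℤ → ℤ} {m : ℤ → ℝ} {α o : N → Ext EN} {O F f : X T (wd a) → Ext E4}
  {U W : Set (X T (wd a))} {M : ℕ} {ε d : Fin M → ℤ → ℤ} {e : Fin M → X T (wd a) → Ext E4}

variable (T a) in
/-- the inside of the arc -/
abbrev dk (x y : ℤ) : Set (X T (wd a)) := T.disc (wd a) (cc x y) (Iio ((y - x) / 2))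

theorem bx_dk {p : X T (wd a)} (h : x < y) (k : p ∈ bx T a x y) : p ∈ dk T a x y :=
  ⟨k.1, (bx_rr h k).trans (sub_lt_self _ (by norm_num))⟩

theorem hd_dk [MeasurableSpace (X T (wd a))] [BorelSpace (X T (wd a))] [SecondCountableTopology (X T (wd a))] (ha : IsWd a) (h : x < y) {n : ℕ} (hN : nv a x y = n + 1) :
    IsOpen (dk T a x y) ∧ HZ (𝓡 4) 1 (dk T a x y) ∧ Bd (𝓡 4) 2 (dk T a x y) n := by
  have := Int54.sigmaCompact (I := 𝓡 4) (X T (wd a))
  obtain ⟨B, hB, hd⟩ := hd_disc (T := T) (c := cc x y) (r := (y - x) / 2) ha h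
    ⟨by unfold cc; linarith, by unfold cc; linarith⟩ ⟨by unfold cc; linarith, by unfold cc; linarith⟩ hN
  exact ⟨hd.op, hd.hz (by simp) (hB.hz 0), by simpa using hd.bd2 (bd_zero.2 (hB.hz 1))⟩

variable (T a) in
/-- the tests of the exceptional classes and of the sphere -/
structure St (x y s : ℤ) (ε d : Fin M → ℤ → ℤ) (e : Fin M → X T (wd a) → Ext E4) (f : X T (wd a) → Ext E4) : Prop where
  hs : a y = s • a x
  nv : nv a x y = M + 2
  ts : ∀ i, Ts T a x y (ε i) (d i) (e i)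
  tf : ∃ d0, Ts T a x y (fz a x y) d0 f ∧ ∀ k, prs x y (fun j => d0 j) k = k x - s * k y
  pe : ∀ i k, TRa a x y k → prs x y (fun j => d i j) k = sl a x y k fun j => ε i j
  wu : ∀ i, Even (∑ j ∈ Finset.Icc x y, d i j * (ε i j + 1))
  z : ∀ i, ε i x = 0 ∧ ε i y = 0
  gr : ∀ i j, sl a x y (fun k => ε i k) (fun k => ε j k) = if i = j then -1 else 0

theorem exists_st (ha : IsWd a) (h : x < y) (hs : a y = s • a x) (h1 : s * s = 1) (hN : nv a x y = M + 2)
    (hc : ∀ i, CH a (ε i)) (h0 : ∀ i j, j ≤ x ∨ y ≤ j → ε i j = 0)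
    (gr : ∀ i j, sl a x y (fun k => ε i k) (fun k => ε j k) = if i = j then -1 else 0) :
    ∃ d e f, St T a x y s ε d e f := by
  choose d e k1 k2 k3 using fun i => exists_ts (T := T) ha h (hc i) (h0 i)
  have c : (fun j => ((if j = x then 1 else if j = y then -s else 0 : ℤ) : ℝ)) = dl1 x + (-s : ℝ) • dl1 y := funext fun j => by
    by_cases e : j = x <;> by_cases e' : j = y <;> simp [dl1, e, e', h.ne, h.ne']
  have pf : ∀ m, prs x y (dl1 x + (-s : ℝ) • dl1 y) m = m x - s * m y := fun m => by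
    rw [prs_add, prs_smul, prs_dl le_rfl h.le, prs_dl h.le le_rfl, neg_mul, sub_eq_add_neg]
  have h1' : (s : ℝ) * s = 1 := by exact_mod_cast h1
  obtain ⟨f, hf⟩ := exists_ts_of (T := T) (d := fun j => if j = x then 1 else if j = y then -s else 0) ha h (ch_fz hs)
    (fun j k => if_neg (by omega)) (by
      have u := fun m => (congrArg (prs x y · m) c).trans (pf m)
      refine Prod.ext ?_ ?_
      · rw [Prod.fst_sum]
        exact (u fun j => -(a j).2).trans (by simp [hs, ← mul_assoc, h1'])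
      · rw [Prod.snd_sum]
        exact (u fun j => (a j).1).trans (by simp [hs, ← mul_assoc, h1'])) fun j k => by
      obtain ⟨k1, k2⟩ := Finset.mem_Icc.1 k
      rw [c, od_add, od_smul, fz_eq hs k1 k2, dot_pq]
      rcases k1.eq_or_lt with rfl | k1
      · simp [od_dl, h.le, k2.not_gt, dt_self]
      · simp [od_dl, h.le, k2.not_gt, k1]
  exact ⟨d, e, f, hs, hN, k1, ⟨_, hf, fun k => c ▸ pf k⟩, k2, k3, fun i => ⟨h0 i x (.inl le_rfl), h0 i y (.inr le_rfl)⟩, gr⟩

variable [MeasurableSpace (X T (wd a))] [BorelSpace (X T (wd a))] [SecondCountableTopology (X T (wd a))]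

/-- one class inside -/
theorem ex_one (H : Sa T a α o O s t U) {d : ℤ → ℤ} {φ c : X T (wd a) → Ext E4} (h : Ts T a x y n d φ) (hN : nv a x y = 2)
    (hF : Cl (𝓡 4) 2 (dk T a x y) F) (h0 : ip (𝓡 4) (-O) F φ ≠ 0) (hc : Cl (𝓡 4) 2 (dk T a x y) c) :
    Ex (𝓡 4) (dk T a x y) (c - (ip (𝓡 4) (-O) c φ / ip (𝓡 4) (-O) F φ) • F) :=
  have k := h.cs.mono fun _ => bx_dk h.lt
  ex_of_pair (ι := Unit) (e := fun _ => φ) (a := fun _ => F) H.ori (by simpa using (hd_dk h.iw h.lt hN).2.2) (fun _ => hF)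
    (fun _ => k) (fun t k _ => by simpa [h0] using k ()) (hc.sub (hF.smul _)) fun _ => by
      rw [k.ip_sub H.ori hc.sm (hF.smul _).sm, ip_smul, div_mul_cancel₀ _ h0, sub_self]

namespace St

variable (h : St T a x y s ε d e f) (H : Sa T a α o O x y U)
include h

theorem lt : x < y := h.tf.choose_spec.1.lt

theorem iw : IsWd a := h.tf.choose_spec.1.iw

theorem cs (i : Fin M) : Cs (𝓡 4) 2 (dk T a x y) (e i) := (h.ts i).cs.mono fun _ => bx_dk h.lt

theorem cf : Cs (𝓡 4) 2 (dk T a x y) f := h.tf.choose_spec.1.cs.mono fun _ => bx_dk h.lt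

theorem op : IsOpen (dk T a x y) := (hd_dk h.iw h.lt h.nv).1

theorem pg (i j : Fin M) : prs x y (fun k => d j k) (fun k => ε i k) = if i = j then -1 else 0 :=
  (h.pe j _ (h.ts i).ch.tra).trans (h.gr i j)

include H

theorem ie (hF : OC T a (dk T a x y) F m) (i : Fin M) :
    ip (𝓡 4) (-O) F (e i) = (2 * π) ^ 2 * prs x y (fun j => d i j) m := (h.ts i).ip H h.op (fun _ => bx_dk h.lt) hF

theorem fi (hF : OC T a (dk T a x y) F m) : ip (𝓡 4) (-O) F f = (2 * π) ^ 2 * (m x - s * m y) :=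
  let ⟨_, k, k'⟩ := h.tf
  k' m ▸ k.ip H h.op (fun _ => bx_dk h.lt) hF

theorem pz (i : Fin M) : prs x y (fun k => d i k) (fun k => fz a x y k) = 0 := by
  obtain ⟨_, k, -⟩ := h.tf
  have := (h.ie H (k.oc _) i).symm.trans ((ip_comm k.cs.cl.dg _).trans (h.fi H ((h.ts i).oc _)))
  simpa [h.z, Real.pi_ne_zero] using this

theorem pc (Z : Finset (Fin M)) (c : Fin M → ℤ) (b : ℤ) (i : Fin M) : prs x y (fun k => d i k)
    (fun k => (∑ l ∈ Z, c l • ε l + b • fz a x y) k) = if i ∈ Z then -(c i : ℝ) else 0 := by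
  have e : ∀ l, ∑ k ∈ Finset.Icc x y, (d i k : ℝ) * ε l k = if l = i then -1 else 0 := fun l => h.pg l i
  have e' : ∑ k ∈ Finset.Icc x y, (d i k : ℝ) * fz a x y k = 0 := h.pz H i
  simp only [prs, Pi.add_apply, Finset.sum_apply, Pi.smul_apply, smul_eq_mul, Int.cast_add, Int.cast_sum, Int.cast_mul,
    mul_add, Finset.mul_sum, Finset.sum_add_distrib, mul_left_comm (d i _ : ℝ), ← Finset.mul_sum _ _ (b : ℝ), e']
  rw [Finset.sum_comm]
  simp [← Finset.mul_sum, e]

omit H in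
theorem ch (Z : Finset (Fin M)) (c : Fin M → ℤ) (b : ℤ) : CH a (∑ l ∈ Z, c l • ε l + b • fz a x y) :=
  (CH.sum fun i _ => (h.ts i).ch.smul _).add ((ch_fz h.hs).smul _)

/-- the inside -/
theorem ins : Ins (𝓡 4) (-O) (dk T a x y) (dk T a x y) e (fun _ => -(2 * π) ^ 2) f := by
  have := Int54.sigmaCompact (I := 𝓡 4) (X T (wd a))
  obtain ⟨h0, k0, k1, k2⟩ := exists_h0 h.iw h.lt.le h.nv
  obtain ⟨q, S, hq⟩ := exists_TL_wd T k0
  obtain ⟨G, c⟩ : ∃ G, OC T a (dk T a x y) G fun j => h0 j :=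
    ⟨_, oc_mono (oc_line k0 isOpen_univ (hq.on isOpen_univ) hq) (subset_univ _)⟩
  have g1 : ∀ i j, ip (𝓡 4) (-O) (e i) (e j) = Matrix.diagonal (fun _ => -(2 * π) ^ 2) i j := fun i j => by
    simp [h.ie H ((h.ts i).oc _), h.pg, Matrix.diagonal_apply]
  have g2 : ∀ i, ip (𝓡 4) (-O) (e i) f = 0 := fun i => by simp [h.fi H ((h.ts i).oc _), h.z]
  refine ⟨H.ori, h.op, subset_rfl, h.cs, h.cf, g1, fun _ => neg_lt_zero.2 (by positivity), g2,
    by simp [h.fi H (h.tf.choose_spec.1.oc _), fz], (hd_dk h.iw h.lt h.nv).2.1, fun _ k l1 l2 =>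
    ex_of_pair (ι := Option (Fin M)) (e := (·.elim f e)) (a := (·.elim _ e)) H.ori
      (by simpa using (hd_dk h.iw h.lt h.nv).2.2) (Option.rec c.cl fun i => (h.cs i).on _)
      (Option.rec h.cf h.cs) (fun t k => ?_) k (Option.rec l2 l1)⟩
  have t0 : t none = 0 := by simpa [g2, h.fi H c, k1, k2, Real.pi_ne_zero] using k none
  exact Option.rec t0 fun i => by simpa [t0, g1, Matrix.diagonal_apply, Real.pi_ne_zero] using k (some i)

/-- characteristic classes are determinants -/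
theorem ref {ι κ : Type} [Fintype ι] [DecidableEq ι] [Fintype κ] [DecidableEq κ] {c : Sc (𝓡 4) (X T (wd a)) ι κ}
    {k : ℤ → ℤ} {S} (hc : c.On (T.tor (wd a))) (hT : TL T (wd a) (wm a k) c.det S (T.tor (wd a))) (hk : ∀ j, Odd (k j))
    (hF : OC T a (dk T a x y) F fun j => n j) (hf : n x = s * n y) (h1 : s * s = 1)
    (ho : ∀ i, |prs x y (fun j => d i j) fun j => n j| = 1) :
    ∃ c' : Sc (𝓡 4) (X T (wd a)) ι (κ × Option Bool), c'.On (dk T a x y) ∧
      Ex (𝓡 4) (dk T a x y) (Ln.F (𝓡 4) ⟨c'.det, 0⟩ - F) := by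
  have := Int54.sigmaCompact (I := 𝓡 4) (X T (wd a))
  obtain ⟨h0, k0, k1, k2⟩ := exists_h0 h.iw h.lt.le h.nv
  have ck : CH a k := fun i => let ⟨_, p1, p2⟩ := Cls19.exists_axis (T := T) h.iw.loc i
    Cls19.tl_vch hT (tor_of_not_off p1) p1 p2
  have so : Odd s := Int.odd_mul.1 (h1 ▸ odd_one) |>.1
  obtain ⟨t, ht⟩ : Even (s * k y - k x) := (so.mul (hk y)).sub_odd (hk x)
  have cs : ∀ i (u : ℤ → ℤ), prs x y (fun j => d i j) (fun j => u j) = (∑ j ∈ Finset.Icc x y, d i j * u j : ℤ) :=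
    fun i u => by simp [prs]
  have ev : ∀ i, Even (∑ j ∈ Finset.Icc x y, d i j * (k j + 2 * t * h0 j) - ∑ j ∈ Finset.Icc x y, d i j * n j) := fun i => by
    have e1 : ∑ j ∈ Finset.Icc x y, d i j * ε i j = -1 := by simpa [cs] using (Int.cast_injective (α := ℝ)
      (a₂ := -1) (by simpa [← cs] using h.pg i i))
    have e2 : Even (∑ j ∈ Finset.Icc x y, d i j * (k j + 2 * t * h0 j - 1)) :=
      Finset.even_sum _ fun j _ => (((hk j).add_even (by simp [mul_assoc])).sub_odd odd_one).mul_left _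
    have e3 : Odd (∑ j ∈ Finset.Icc x y, d i j * n j) := odd_abs.1 (by
      rw [show |_| = (1 : ℤ) by exact_mod_cast cs i n ▸ ho i]; exact odd_one)
    have e4 := h.wu i
    simp only [mul_add, mul_sub, mul_one, Finset.sum_add_distrib, Finset.sum_sub_distrib, e1] at e2 e4 ⊢
    grind
  choose q hq using ev
  have ch : CH a (t • h0 + ∑ i, q i • ε i) := (k0.smul t).add (CH.sum fun i _ => (h.ts i).ch.smul _)
  obtain ⟨p, S', hp⟩ := exists_TL_wd T ch
  have s1 : dk T a x y ⊆ T.tor (wd a) := fun _ k => k.1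
  have c1 := (hc.mono s1).tw ((Lab56.LOn.of_ln (hp.on isOpen_univ)).mono (subset_univ _))
  have t1 := Lab56.tl_tk2 h.op (hc.mono s1) (hT.mono s1) (hp.mono (subset_univ _))
  rw [← wm_add, ← wm_add] at t1
  have c2 := oc_comb (-1) (oc_line (ck.add (ch.add ch)) h.op (t1.on h.op) t1) hF
  rw [neg_one_smul, ← sub_eq_add_neg] at c2
  refine ⟨_, c1, (h.ins H).ex _ c2.cl (fun i => ?_) ?_⟩
  · have e : ∀ l, ∑ j ∈ Finset.Icc x y, d i j * ε l j = if l = i then -1 else 0 := fun l =>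
      Int.cast_injective (α := ℝ) (by simpa [← cs] using h.pg l i)
    have u : ∑ j ∈ Finset.Icc x y, d i j * (∑ l, q l • ε l) j = -q i := by
      simp only [Finset.sum_apply, Pi.smul_apply, smul_eq_mul, Finset.mul_sum, mul_left_comm (d i _)]
      rw [Finset.sum_comm]
      simp [← Finset.mul_sum, e]
    have v := hq i
    rw [h.ie H c2, prs_add', prs_smul', cs, cs]
    simp only [Pi.add_apply, Pi.smul_apply, smul_eq_mul, mul_add, Finset.sum_add_distrib, u, two_mul, add_mul] at v ⊢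
    rw [sub_eq_iff_eq_add.1 v |>.symm.trans (add_assoc ..).symm |> fun z => eq_sub_of_add_eq' z]
    push_cast
    ring
  · rw [h.fi H c2]
    simp only [Pi.add_apply, Pi.smul_apply, smul_eq_mul, Finset.sum_apply, h.z, k1, k2, hf]
    have : (s : ℝ) * k y - k x = t + t := by exact_mod_cast ht
    push_cast
    simp
    linear_combination -this

end St

/-! ### the band -/

section band

variable {v : ℝ → Z2} {u b η : Z2} {c r : ℝ} {ρ : ℝ → ℝ} (hu : Uni u b) (A : Tb.Arc v u u c ρ)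

local notation "JR" => ModelWithCorners.prod (ModelWithCorners.prod (𝓡 1) (𝓡 2)) 𝓘(ℝ, ℝ)
local notation "YR" => (Circle × Metric.sphere (0 : E3) 1) × ℝ

include A

theorem rb_off (q : YR) : T.rb v hu c ρ q ∈ off T v ↔ (L3 q.1.2).1 ≠ 0 := Set.ext_iff.1 (pre_rb hu A) q

theorem rb_tor (q : YR) : T.rb v hu c ρ q ∈ T.tor v := T.rod_mem_tor hu (A.mem_Ur q)

theorem rb_dense (T : Tb IN N) (hu : Uni u b) : Dense {q : YR | (L3 q.1.2).1 ≠ 0} :=
  (dense_off.preimage (T.isOE_rb hu A).loc.isOpenMap).mono fun q => (rb_off hu A q).1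

theorem rb_chi {q : YR} (k : (L3 q.1.2).1 ≠ 0) : pm JR (𝓡 4) (T.rb v hu c ρ) (ang (𝓡 4) (chi T v η)) q =
    (dot η u : ℝ) • ps JR (fun q : YR => (q.1.2 : E3)) q + (dot η b : ℝ) • ang JR (fun q : YR => q.1.1) q := by
  have s : ∀ q : YR, FSm JR (fun q : YR => (q.1.2 : E3)) q := fun q =>
    (contMDiff_coe_sphere q.1.2).comp q (contMDiffAt_snd.comp q contMDiffAt_fst)
  have c1 := csm_ps (s q) k
  have c2 : CSm JR (fun q : YR => q.1.1) q := contMDiffAt_fst.comp q contMDiffAt_fst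
  rw [pm_ang (csm_off (rb_tor hu A q) ((rb_off hu A q).2 k)) (((T.isOE_rb hu A).contMDiff q).mdifferentiableAt ne0), ps,
    ← ang_zpow c1, ← ang_zpow c2, ← ang_mul (c1.zpow _) (c2.zpow _)]
  refine ang_congr (((sm_z (s q)).continuousAt.eventually_ne k).mono fun z l => ?_)
  rw [comp_apply, Tb.rb, chi_rod hu ((rod_mem_off (T := T) hu (A.mem_Ur z)).1 ((rb_off hu A z).2 l)), rc, L3_smul,
    dir_pos_mul (A.pos z.2)]
  rfl

theorem band_al {β : X T v → Ext E4} (hs : ∀ q, SmAt (𝓡 4) β (T.rb v hu c ρ q))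
    (he : ∀ q, T.rb v hu c ρ q ∈ off T v → β (T.rb v hu c ρ q) = -ang (𝓡 4) (chi T v η) (T.rb v hu c ρ q))
    (h0 : dot η u = 0) (q : YR) : pm JR (𝓡 4) (T.rb v hu c ρ) β q = -(dot η b : ℝ) • ang JR (fun q : YR => q.1.1) q := by
  refine form_eq_of_dense (b := -(dot η b : ℝ) • ang JR fun q : YR => q.1.1) (rb_dense A T hu)
    (((hs q).pm ((T.isOE_rb hu A).contMDiff q)).of_le (by simp))
    (((smAt_ang (contMDiffAt_fst.comp q contMDiffAt_fst)).smul _).of_le (by simp)) (Eventually.of_forall fun z k => ?_)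
  rw [pm_congr_right (b := -ang (𝓡 4) (chi T v η)) (he z ((rb_off hu A z).2 k)), pm_neg, Pi.neg_apply, rb_chi hu A k, h0]
  simp

theorem band_ar {B : ℝ → ℝ × ℝ} {G : X T v → Ext E4} (hG : TG T v r 0 B (fun _ => 0) G) (e1 : dot η u = 1) (e2 : dot η b = 0)
    (h1 : ∀ t, ∀ᶠ s in 𝓝 (c - ρ t), B s = rc2 η) (h2 : ∀ t, ∀ᶠ s in 𝓝 (c + ρ t), B s = -rc2 η) :
    ∃ β, Sm JR univ β ∧ Dg 1 univ β ∧
      ∀ q, Rf65.ar JR (fun q : YR => (q.1.2 : E3)) q = pm JR (𝓡 4) (T.rb v hu c ρ) G q + dM JR β q := by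
  have j := (T.isOE_rb hu A).contMDiff
  refine ar_pot (γ := pm JR (𝓡 4) (T.rb v hu c ρ) (pot T v r 0 B fun _ => 0)) (fun q =>
    (contMDiff_coe_sphere q.1.2).comp q (contMDiffAt_snd.comp q contMDiffAt_fst)) (fun q => norm_eq_of_mem_sphere _)
    (rb_dense A T hu) (fun q _ => (hG.cl.sm _ trivial).pm (j q)) (fun q k => ?_) fun q k => ?_
  · have l := (rb_off (T := T) hu A q).2 k
    exact ⟨(hG.sm _ l).pm (j q), (hG.dg.pm (W := {q}) fun _ e => e ▸ l) q rfl,
      (dM_pm ne0 (j q) (hG.sm _ l)).trans (pm_congr_right (hG.eq _ l).symm)⟩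
  have l : T.rb v hu c ρ q ∉ off T v := fun l => (rb_off hu A q).1 l k
  have tm : T.time v (T.rb v hu c ρ q) = c + ρ q.2 * (q.1.2 : E3) 2 := T.time_rod hu (A.mem_Ur q)
  have e : (q.1.2 : E3) 2 = 1 ∨ (q.1.2 : E3) 2 = -1 := sq_eq_one_iff.1 (by
    have := norm_L3 (q.1.2 : E3)
    rwa [show (L3 (q.1.2 : E3)).1 = 0 from k, norm_zero, norm_eq_of_mem_sphere, zero_pow two_ne_zero, add_zero, one_pow] at this)
  have hB : ∀ᶠ s in 𝓝 (T.time v (T.rb v hu c ρ q)), B s = -(q.1.2 : E3) 2 • rc2 η := by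
    rcases e with e | e <;> rw [tm, e]
    · simpa using h2 q.2
    · simpa [sub_eq_add_neg] using h1 q.2
  filter_upwards [(j q).continuousAt.eventually ((pot_near (α := 0) (A := B) (c := fun _ => 0) hG.pos (rb_tor hu A q)
    ((yy_axis l).trans_lt hG.pos)).and (T.continuous_time.continuousAt.eventually hB))] with z a k'
  rw [pm_congr_right (b := -(q.1.2 : E3) 2 • ang (𝓡 4) (chi T v η)) (by
    rw [a.1, tq_apply, a.2, Pi.smul_apply, ang_chi (η := η) (rb_tor hu A z) ((rb_off hu A z).2 k')]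
    simp [rc2, smul_smul]), pm_smul, Pi.smul_apply, rb_chi hu A k', e1, e2]
  simp only [Int.cast_one, one_smul, Int.cast_zero, zero_smul, add_zero]
  rfl

end band

end Crest.Agent.X212.Rs52
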