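import Crest.Agent.X212.Rn83.Main
import Crest.Agent.X212.Loc8.Rl
import Crest.Agent.X212.Lab56.Exi

/-!
# Row 212, BR-RS (helper52), part Tst: integral tests on a rod manifold

* `CH` (integral orders), `exists_dz` (integral weights, Wu's formula), `Ts` (tests) and their pairings, lines,
  potentials.
-/

set_option autoImplicit false
set_option maxHeartbeats 400000
set_option linter.unusedSectionVars false
set_option linter.style.haveILetI false

open Set Filter Topology Function Module MeasureTheory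
open scoped ContDiff Manifold Real
open Crest.Agent.R208 Crest.Agent.R208.FI
open Crest.Agent.R208.F hiding wd
open Crest.Agent.X212.Int54 hiding dt pr kap tp_pr pr_eq cAt_pr pm_pr kap_ne sigmaCompact sl
open Crest.Agent.X212.Line51 hiding tp Uni Cs
open Crest.Agent.X212.Orx52 Crest.Agent.X212.Rod53 Crest.Agent.X212.Pj41 Crest.Agent.X212.Dr59
open Crest.Agent.X212.Rn83 (sl)
open Crest.Agent.X212.Loc8 (RL rl_of_par)

noncomputable section

namespace Crest.Agent.X212.Rs52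

section ari

variable {a : ℤ → Z2} {n n' : ℤ → ℤ} {x y : ℤ} {u b m m' : Z2}

/-- orders that come from characters -/
def CH (a : ℤ → Z2) (n : ℤ → ℤ) : Prop := ∀ i, ∃ η, dot η (a (i - 1)) = n (i - 1) ∧ dot η (a i) = n i

theorem CH.add (h : CH a n) (h' : CH a n') : CH a (n + n') := fun i =>
  let ⟨η, a1, a2⟩ := h i
  let ⟨η', b1, b2⟩ := h' i
  ⟨η + η', by simp [dot_add, a1, b1], by simp [dot_add, a2, b2]⟩

theorem CH.smul (s : ℤ) (h : CH a n) : CH a (s • n) := fun i =>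
  let ⟨η, a1, a2⟩ := h i
  ⟨s • η, by simp [← a1, dot]; ring, by simp [← a2, dot]; ring⟩

theorem CH.sum {ι : Type*} {S : Finset ι} {f : ι → ℤ → ℤ} (h : ∀ i ∈ S, CH a (f i)) : CH a (∑ i ∈ S, f i) :=
  Finset.sum_induction _ _ (fun _ _ => CH.add) (fun _ => ⟨0, by simp, by simp⟩) h

theorem CH.tra (h : CH a n) : TRa a x y fun j => n j := fun c _ _ =>
  let ⟨η, a1, a2⟩ := h c
  ⟨fun e => by simp only [← a1, ← a2, e], fun e => by simp only [← a1, ← a2, e, dot_neg', Int.cast_neg]⟩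

/-- the perpendicular character -/
def pq (a : Z2) : Z2 := (-a.2, a.1)

/-- the quadratic refinement -/
def qq (m : Z2) : ℤ := m.1 * m.2 + m.1 + m.2

theorem rc_step (m u : Z2) (s : ℤ) : rc2 (m + s • pq u) = rc2 m + (s : ℝ) • pp u := by simp [rc2, pq, pp]

theorem exists_pq (hu : Uni u b) (h : dot m u = dot m' u) :
    ∃ s : ℤ, m' = m + s • pq u ∧ Even (s * (dot m u + 1) + qq m' - qq m) := by
  have k := hu.sq
  obtain ⟨s, rfl⟩ : ∃ s : ℤ, m' = m + s • pq u := by
    simp only [dt, dot] at h k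
    refine ⟨dt u b * dot (m' - m) b, Prod.ext ?_ ?_⟩ <;> simp [pq, dt, dot]
    · linear_combination (m.1 - m'.1) * k - (u.1 * b.2 - u.2 * b.1) * b.2 * h
    · linear_combination (m.2 - m'.2) * k + (u.1 * b.2 - u.2 * b.1) * b.1 * h
  refine ⟨s, rfl, ZMod.intCast_eq_zero_iff_even.1 ?_⟩
  have k' := congrArg (Int.cast : ℤ → ZMod 2) k
  simp only [dt, dot, qq, pq, Prod.fst_add, Prod.snd_add, Prod.smul_fst, Prod.smul_snd, smul_eq_mul] at k' ⊢
  push_cast at k' ⊢
  generalize (u.1 : ZMod 2) = p, (u.2 : ZMod 2) = q, (b.1 : ZMod 2) = r, (b.2 : ZMod 2) = t, (m.1 : ZMod 2) = f,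
    (m.2 : ZMod 2) = g, (s : ZMod 2) = l at k' ⊢
  revert p q r t f g l
  decide

open Finset in
/-- **integral weights** -/
theorem exists_dz (ha : IsWd a) (hxy : x ≤ y) (h : CH a n) (h0 : dot m (a x) = n x) (h1 : dot m' (a y) = n y) :
    ∃ d : ℤ → ℤ, rc2 m + ∑ j ∈ Icc x y, (d j : ℝ) • pp (a j) = rc2 m' ∧
      (∀ j ∈ Finset.Icc x y, (n j : ℝ) = dr (rc2 m) (a j) + od a x (fun j => d j) j) ∧
      (∀ k, TRa a x y k → sl a x y k (fun j => n j) =
        prs x y (fun j => d j) k + kk (rc2 m') (a y) * k y - kk (rc2 m) (a x) * k x) ∧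
      Even (∑ j ∈ Icc x y, d j * (n j + 1) + qq m' - qq m) := by
  induction y, hxy using Int.leInduction generalizing m' with
  | base =>
    obtain ⟨_, hb⟩ := ha.prim x
    obtain ⟨s, rfl, k⟩ := exists_pq hb (h0.trans h1.symm)
    refine ⟨fun _ => s, by simp [rc_step, -zsmul_eq_mul], fun j hj => ?_, fun n _ => ?_, by simpa [h0] using k⟩
    · obtain rfl : j = x := by simpa using hj
      simp [od, h0, dr_rc2]
    · simp [sl, prs, rc_step, kk_add (wd_ne ha x), -zsmul_eq_mul]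
      ring
  | succ y hxy ih =>
    obtain ⟨m1, e1, e2⟩ := h (y + 1)
    rw [add_sub_cancel_right] at e1
    obtain ⟨d, k1, k2, k3, k4⟩ := ih e1
    obtain ⟨_, hb⟩ := ha.prim (y + 1)
    obtain ⟨s, rfl, k5⟩ := exists_pq hb (e2.trans h1.symm)
    have u : ∀ j, j ≤ y → Function.update d (y + 1) s j = d j := fun j hj => Function.update_of_ne (by omega) _ _
    have hI : Finset.Icc x (y + 1) = insert (y + 1) (Finset.Icc x y) := by ext; simp; omega
    have v : ∀ {V : Type} [AddCommMonoid V] (f : ℤ → ℤ → V), ∑ j ∈ Icc x (y + 1), f j (Function.update d (y + 1) s j) =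
        f (y + 1) s + ∑ j ∈ Icc x y, f j (d j) := fun f => by
      rw [hI, sum_insert (by simp), Function.update_self, sum_congr rfl fun j hj => by rw [u j (Finset.mem_Icc.1 hj).2]]
    refine ⟨Function.update d (y + 1) s, ?_, fun j hj => ?_, fun n hn => ?_, ?_⟩
    · rw [v fun j r => (r : ℝ) • pp (a j), rc_step, ← k1]
      abel
    · rw [show od a x (fun j => (Function.update d (y + 1) s j : ℤ)) j = od a x (fun j => d j) j from
        sum_congr rfl fun i hi => by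
          simp only [u i (by have := Finset.mem_Ico.1 hi; have := Finset.mem_Icc.1 hj; omega)]]
      rcases Finset.mem_insert.1 (hI ▸ hj) with rfl | hj
      · rw [← e2, ← dr_rc2, ← k1, dr_add, dr_sum, od, show Finset.Ico x (y + 1) = Finset.Icc x y by ext; simp]
        simp only [dr_smul, dr_pp]
      · exact k2 j hj
    · have := lr_step ha hn (j := y + 1) (by omega) le_rfl (rc2 m1)
      have k6 := k3 n (hn.mono le_rfl (by omega))
      rw [add_sub_cancel_right, dr_rc2, dr_rc2, e1, e2] at this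
      rw [sl] at k6 ⊢
      rw [← Finset.insert_Ioc_right_eq_Ioc_add_one hxy, sum_insert (by simp), k6, add_sub_cancel_right, this, prs, prs,
        v fun j r => (r : ℝ) * n j, rc_step, kk_add (wd_ne ha _)]
      ring
    · rw [v fun j r => r * (n j + 1)]
      have := k4.add k5
      rw [e2] at this
      exact Eq.subst (by ring) this

end ari

variable {EN HN : Type} [NormedAddCommGroup EN] [NormedSpace ℝ EN] [FiniteDimensional ℝ EN]
  [TopologicalSpace HN] {IN : ModelWithCorners ℝ EN HN} [IN.Boundaryless]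
  {N : Type} [TopologicalSpace N] [ChartedSpace HN N] [IsManifold IN ∞ N] [T2Space N] [CompactSpace N] {T : Tb IN N}
  {a : ℤ → Z2} {x y s t : ℤ} {n d : ℤ → ℤ} {m : ℤ → ℝ} {α o : N → Ext EN} {O F F' φ ψ : X T (wd a) → Ext E4}
  {U W : Set (X T (wd a))} {p : X T (wd a)}

/-! ### orders -/

theorem oc_mono (h : OC T a U F m) (k : W ⊆ U) : OC T a W F m :=
  let ⟨G, A, h1, h2, h3⟩ := h.ex
  ⟨h.cl.mono k, G, A, h1.mono k, h2.mono k, h3⟩

theorem oc_comb {m' : ℤ → ℝ} (r : ℝ) (h : OC T a U F m) (h' : OC T a U F' m') : OC T a U (F + r • F') (m + r • m') :=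
  let ⟨G, A, h1, h2, h3⟩ := h.ex
  let ⟨G', A', k1, k2, k3⟩ := h'.ex
  ⟨h.cl.add (h'.cl.smul r), _, _, h1.add (k1.smul r), by
    rw [add_sub_add_comm, ← smul_sub]; exact h2.add (k2.smul r), fun j t ht => by
    simp [dr_add, dr_smul, h3 j t ht, k3 j t ht]⟩

theorem oc_congr (h : OC T a U F m) (hU : IsOpen U) (e : EqOn F' F U) : OC T a U F' m :=
  let ⟨G, A, h1, h2, h3⟩ := h.ex
  ⟨h.cl.congr hU e, G, A, h1, h2.congr fun p hp => by rw [Pi.sub_apply, Pi.sub_apply, e hp], h3⟩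

theorem oc_line {κ : Type*} [Fintype κ] {L : Ln E4 (X T (wd a)) κ} {S} (h : CH a n) (hU : IsOpen U)
    (hL : L.On (𝓡 4) U) (hT : TL T (wd a) (wm a n) L.p S U) : OC T a U (L.F (𝓡 4)) fun j => n j := by
  choose e he using h
  simpa only [dr_rc2, fun j => (he j).2] using (wc_line' he hU hL hT).oc

/-! ### tests -/

variable (T a) in
/-- the box that carries a test -/
abbrev bx (s t : ℤ) : Set (X T (wd a)) := T.ov (wd a) (Icc ((s : ℝ) + 5 / 6) (t + 1 / 6) ×ˢ Icc 0 (1 / 6))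

variable (a) in
/-- the path of a test -/
abbrev mw (s t : ℤ) (d : ℤ → ℤ) : ℝ → ℝ × ℝ := mv a (win s t) fun k => d k.1

variable (T a) in
/-- the test with the orders `n` and the weights `d` -/
structure Ts (s t : ℤ) (n d : ℤ → ℤ) (φ : X T (wd a) → Ext E4) : Prop where
  iw : IsWd a
  lt : s < t
  ch : CH a n
  tg : TG T (wd a) (1 / 12) 0 (mw a s t d) (fun _ => 0) φ
  tot : ∑ j ∈ Finset.Icc s t, (d j : ℝ) • pp (a j) = 0
  ord : ∀ j, oh a (win s t) (fun k => d k.1) j = n j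

theorem exists_ts_of (ha : IsWd a) (h : s < t) (hn : CH a n) (h0 : ∀ j, j ≤ s ∨ t ≤ j → n j = 0)
    (tot : ∑ j ∈ Finset.Icc s t, (d j : ℝ) • pp (a j) = 0)
    (k : ∀ j ∈ Finset.Icc s t, (n j : ℝ) = od a s (fun j => d j) j) : ∃ φ, Ts T a s t n d φ := by
  obtain ⟨φ, hφ⟩ := exists_TG (T := T) (c := fun _ => 0) h12 (adm_mv (a := a) (S := win s t) (l := fun k => d k.1))
    contDiff_const (xa_zero T 1)
  refine ⟨φ, ha, h, hn, hφ, tot, fun j => ?_⟩
  rcases lt_or_ge t j with e | e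
  · have := congrArg (dr · (a j)) tot
    simp only [dr_sum, dr_smul, dr_pp] at this
    rw [h0 j (.inr e.le), oh, Finset.filter_true_of_mem fun k hk => (tk_mem k).1.trans_lt ((tk_hs (win_sub h hk)).2.trans_lt
      (Int.cast_lt.2 e)) |> Int.cast_lt.1, win, Finset.sum_map]
    simpa [dr, wk] using this
  rw [oh_win (d := fun j => d j) (by omega)]
  rcases lt_or_ge j s with e' | e'
  · simp [od, h0 j (.inl e'.le), e'.le]
  · exact (k j (Finset.mem_Icc.2 ⟨e', e⟩)).symm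

theorem exists_ts (ha : IsWd a) (h : s < t) (hn : CH a n) (h0 : ∀ j, j ≤ s ∨ t ≤ j → n j = 0) :
    ∃ d φ, Ts T a s t n d φ ∧ (∀ k, TRa a s t k → prs s t (fun j => d j) k = sl a s t k fun j => n j) ∧
      Even (∑ j ∈ Finset.Icc s t, d j * (n j + 1)) := by
  obtain ⟨d, d1, d2, d3, d4⟩ := exists_dz ha h.le hn (m := 0) (m' := 0) (by simp [h0]) (by simp [h0])
  obtain ⟨φ, hφ⟩ := exists_ts_of (T := T) (d := d) ha h hn h0 (by simpa [rc2] using d1) (by simpa [rc2, dr] using d2)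
  exact ⟨d, φ, hφ, fun k hk => by simp [d3 k hk, kk, rc2], by simpa using d4⟩

theorem isCompact_bx (ha : IsWd a) : IsCompact (bx T a s t) :=
  T.isCompact_ov (isCompact_Icc.prod isCompact_Icc) fun q _ => ha.loc q.1

theorem mv_wd {S l} (u : ℝ) (h : ∀ j, oh a S l j = n j) : dr (mv a S l u) (wd a u) = wm a n u := by
  rw [wm, Rod53.wd]
  split_ifs
  · simp [dr]
  rw [← h]
  rcases (Int.floor_le u).lt_or_eq with k | k
  · exact mv_slot ⟨k, Int.lt_floor_add_one u⟩
  · rw [← mv_slot (t := u + 1 / 24) ⟨by linarith, by linarith⟩]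
    simp only [mv, sw_tk (j := ⌊u⌋) (t := u) (by simp [k]), sw_tk (j := ⌊u⌋) (t := u + 1 / 24) (by
      rw [k, add_sub_cancel_left]; norm_num [abs_of_pos])]

namespace Ts

variable (h : Ts T a s t n d φ)
include h

theorem z {u : ℝ} (hu : u ∉ Icc ((s : ℝ) + 5 / 6) (t + 1 / 6)) : ∀ᶠ v in 𝓝 u, mw a s t d v = 0 :=
  (out_sb (win_sub h.lt) hu).elim id fun c => c.mono fun _ e => e.trans ((Finset.sum_map _ _ _).trans h.tot)

theorem cs : Cs (𝓡 4) 2 (bx T a s t) φ := by
  have c := h.tg.cs_ov (xa_zero T 1) (by norm_num) h.iw.loc isCompact_Icc fun u hu => by simpa using h.z hu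
  rwa [show (2 : ℝ) * (1 / 12) = 1 / 6 by norm_num] at c

theorem pot0 (hp : p ∉ bx T a s t) : pot T (wd a) (1 / 12) 0 (mw a s t d) (fun _ => 0) p = 0 := by
  rw [pot_apply]
  by_cases e : p ∈ T.tor (wd a) ∧ T.yy (wd a) p ≤ 2 * (1 / 12)
  · rw [tq_apply, (h.z (u := T.time (wd a) p) fun l => hp ⟨e.1, l, (T.eta_of_tor e.1).1,
      e.2.trans (by norm_num)⟩).self_of_nhds]
    simp
  · rw [(gw_one h12 e).self_of_nhds]
    simp

theorem oc (U : Set (X T (wd a))) : OC T a U φ fun j => n j := funext h.ord ▸ h.tg.oc U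

/-- the test is the curvature of a line -/
theorem rl [MeasurableSpace (X T (wd a))] [BorelSpace (X T (wd a))] [SecondCountableTopology (X T (wd a))]
    (hW : IsOpen W) (k : bx T a s t ⊆ W) : ∃ K, IsCompact K ∧ K ⊆ W ∧ RL (𝓡 4) K φ := by
  have := Int54.sigmaCompact (I := 𝓡 4) (X T (wd a))
  obtain ⟨q, S, hq⟩ := exists_TL_wd T h.ch
  obtain ⟨b, b1, b2, b3⟩ := h.tg.exists_conn (mv_wd · h.ord) isOpen_univ hq
  have c := isCompact_bx (T := T) (s := s) (t := t) h.iw
  have o := hW.sdiff c.isClosed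
  obtain ⟨S', e1, e2⟩ := ((hq.mono (subset_univ (W \ bx T a s t))).congr_m (m' := 0) fun p hp e =>
    (h.z fun l => hp.2 ⟨tor_of_not_off e, l, (yy_axis e).ge, (yy_axis e).trans_le (by norm_num)⟩).mono fun u z => by
      have := mv_wd u h.ord
      rw [show mv _ _ _ u = 0 from z] at this
      exact Int.cast_injective (α := ℝ) (by simpa [dr] using this)).exists_fr0 o
  obtain ⟨K, k1, k2, k3⟩ := rl_of_par hW c k (b1.mono (subset_univ _)) (fr_of_pot o (b1.mono (subset_univ _))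
    (b2.mono (inter_subset_inter_left _ (subset_univ _))) e1 (g := 1) (fun _ _ _ => contMDiffAt_const)
    (fun p a b => by rw [sc_one, e2 p a b]; exact Matrix.mul_one _) Sm.zero fun p a _ => by rw [h.pot0 a.2]; simp)
  refine ⟨K, k1, k2, ?_⟩
  rwa [indicator_congr fun p _ => b3 trivial, indicator_eq_self.2 ((subset_tsupport φ).trans (h.cs.sub.trans k))] at k3

variable [MeasurableSpace (X T (wd a))] [BorelSpace (X T (wd a))] [SecondCountableTopology (X T (wd a))]

/-- **the pairing** -/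
theorem ip (H : Sa T a α o O x y U) (hW : IsOpen W) (k : bx T a s t ⊆ W) (hF : OC T a W F m) :
    ip (𝓡 4) (-O) F φ = (2 * π) ^ 2 * prs s t (fun j => d j) m := by
  obtain ⟨G, A, h1, h2, h3⟩ := hF.ex
  rw [ip_neg_ori, (h.cs.mono k).ip_coh H.ox.ori hF.cl.sm h1.cl.sm h2, h1.ip_eq H.ox H.pos hW h.tg.tf (h.cs.mono k),
    integral_mv h3, neg_neg]
  exact congrArg _ (H.sum_win (d := fun j => d j) fun k => m k.1)

end Ts

theorem bx_mono (h1 : x ≤ s) (h2 : t ≤ y) : bx T a s t ⊆ bx T a x y := fun _ k =>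
  ⟨k.1, Icc_subset_Icc (by gcongr) (by gcongr) k.2.1, k.2.2⟩

theorem bx_rr (h : x < y) (k : p ∈ bx T a x y) : T.rr (wd a) (Wd38.cc x y) p < (y - x) / 2 - 1 / 4 := by
  obtain ⟨h1, ⟨h2, h3⟩, h4, h5⟩ : p ∈ T.tor _ ∧ T.time _ p ∈ Icc _ _ ∧ T.yy _ p ∈ Icc _ _ := k
  have : (x : ℝ) + 1 ≤ y := by exact_mod_cast h
  refine (Real.sqrt_lt' (by linarith)).2 ?_
  unfold Wd38.cc
  nlinarith [mul_nonneg (sub_nonneg.2 h2) (sub_nonneg.2 h3)]

/-- the difference of two tests whose orders differ by a character -/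
theorem exists_al {s' t' : ℤ} {n' d' : ℤ → ℤ} (h : Ts T a s t n d φ) (h' : Ts T a s' t' n' d' ψ) {η : Z2}
    (e : ∀ j, x ≤ j → j ≤ y → n j - n' j = dot η (a j)) : ∃ β,
    (∀ p ∈ T.tor (wd a), T.time (wd a) p ∈ Ioo (x : ℝ) (y + 1) →
      SmAt (𝓡 4) β p ∧ IsDeg 1 (β p) ∧ dM (𝓡 4) β p = (φ - ψ) p) ∧
    ∀ p ∈ T.tor (wd a), p ∈ off T (wd a) → p ∉ bx T a s t → p ∉ bx T a s' t' → β p = -ang (𝓡 4) (chi T (wd a) η) p := by
  have k := h.tg.comb (-1) h'.tg
  obtain ⟨β, b1, b2⟩ := k.exists_pot (y := rc2 η) (isOpen_Ioo (a := (x : ℝ)) (b := y + 1)) fun u hu => by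
    filter_upwards [k.adm.ev u, tendsto_snd.eventually (isOpen_Ioo.mem_nhds hu)] with z z1 z2
    rw [dr_sub, z1, Pi.add_apply, Pi.smul_apply, dr_add, dr_smul, mv_wd _ h.ord, mv_wd _ h'.ord, dr_rc2, wm, wm, Rod53.wd]
    split_ifs
    · simp
    · rw [← e _ (Int.le_floor.2 z2.1.le) (Int.lt_add_one_iff.1 (Int.floor_lt.2 (by exact_mod_cast z2.2)))]
      push_cast
      ring
  refine ⟨β, by simpa only [neg_one_smul, ← sub_eq_add_neg] using b1, fun p p1 p2 p3 p4 => ?_⟩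
  have z := h.pot0 p3
  have z' := h'.pot0 p4
  rw [b2 p p2, ang_chi p1 p2]
  simp only [pot_apply, tq_apply, Pi.add_apply, Pi.smul_apply, Prod.fst_add, Prod.snd_add, Prod.smul_fst, Prod.smul_snd,
    smul_eq_mul, rc2] at z z' ⊢
  linear_combination (norm := module) z - z'

/-- a toric form that turns the character `η` into `-η` and vanishes between the slots `s` and `t` -/
theorem exists_eta (h : dt (a s) (a t) ≠ 0) (h1 : x ≤ s) (h2 : s ≤ t) (h3 : t < y) (η : Z2) {r : ℝ} (hr : 0 < r) :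
    ∃ A F m, TG T (wd a) r 0 A (fun _ => 0) F ∧ OC T a univ F m ∧ m x = dot η (a x) ∧ m y = -dot η (a y) ∧
      (∀ u : ℝ, u ≤ s + 1 / 12 → A u = rc2 η) ∧ (∀ u : ℝ, t + 11 / 12 ≤ u → A u = -rc2 η) ∧
      ∀ p ∈ T.tor (wd a), T.yy (wd a) p < r → T.time (wd a) p ∈ Ioo ((s : ℝ) + 1 / 6) (t + 5 / 6) → F p = 0 := by
  have h' : (dt (a s) (a t) : ℝ) ≠ 0 := Int.cast_ne_zero.2 h
  have st : (s : ℝ) ≤ t := Int.cast_le.2 h2
  let l : ℤ × Bool → ℝ := fun k => cond k.2 (-2 * dr (rc2 η) (a s) / dt (a s) (a t) * -1) (-2 * dr (rc2 η) (a t) / dt (a s) (a t))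
  let S : Finset (ℤ × Bool) := {(s, false), (t, true)}
  have e : ∀ u, mv a S l u = (sw (1 / 12) (u - s) * l (s, false)) • pp (a s) +
      (sw (1 / 12) (u - (t + 3 / 4)) * l (t, true)) • pp (a t) := fun u => by
    rw [mv, Finset.sum_pair (by simp)]
    simp [tk]
  obtain ⟨F, k⟩ := exists_TG (T := T) (c := fun _ => 0) hr (adm_const (wd a) (rc2 η)) contDiff_const (xa_zero T 1)
  obtain ⟨F', k'⟩ := exists_TG (T := T) (c := fun _ => 0) hr (adm_mv (a := a) (S := S) (l := l)) contDiff_const (xa_zero T 1)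
  have g := k.comb 1 k'
  rw [one_smul, one_smul, one_smul, show ((fun _ => 0) + fun _ => 0 : ℝ → ℝ) = fun _ => 0 from add_zero _] at g
  have e1 : ∀ u : ℝ, u ≤ s + 1 / 12 → rc2 η + mv a S l u = rc2 η := fun u hu => by
    rw [e, sw_zero h12 (by linarith), sw_zero h12 (by linarith)]
    simp
  have e2 : ∀ u : ℝ, t + 11 / 12 ≤ u → rc2 η + mv a S l u = -rc2 η := fun u hu => by
    rw [e, sw_one h12 (by linarith), sw_one h12 (by linarith)]
    refine Prod.ext ?_ ?_ <;> simp [l, pp, dr, rc2] <;> field_simp <;> simp [dt] <;> ring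
  have ty : (t : ℝ) + 1 ≤ y := by exact_mod_cast h3
  have xs : (x : ℝ) ≤ s := Int.cast_le.2 h1
  refine ⟨_, _, fun j => dr (rc2 η + mv a S l (j + 1 / 24)) (a j), g,
    ⟨g.cl, _, _, g.tf, ex_of_zero fun _ _ => sub_self _, fun j u hu => ?_⟩, by simp only [e1 (x + 1 / 24) (by linarith), dr_rc2],
    by simp only [e2 (y + 1 / 24) (by linarith), ← dr_rc2]; simp [dr]; ring, e1, e2, fun p p1 p2 p3 => ?_⟩
  · simp only [Pi.add_apply, dr_add, mv_slot hu, mv_slot (t := j + 1 / 24) (j := j) ⟨by linarith, by linarith⟩]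
  refine form_eq_of_dense dense_off ((g.cl.sm p trivial).of_le (by simp)) cAt_zero ?_
  filter_upwards [ev_lt p1 p2, (isOpen_Ioo.preimage T.continuous_time).mem_nhds p3] with q q1 q2 q3
  rw [g.eq q q3, dM_congr (pot_near hr q1.1 q1.2), dM_tq g.adm.sm q1.1 q3, tq_apply,
    EventuallyEq.deriv_eq (f := fun _ => rc2 η + l (s, false) • pp (a s)) (eventually_of_mem (isOpen_Ioo.mem_nhds q2)
      fun u hu => by rw [Pi.add_apply, e, sw_one h12 (by linarith [hu.1]), sw_zero h12 (by linarith [hu.2])]; simp)]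
  simp

end Crest.Agent.X212.Rs52
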