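import Crest.Agent.X212.Rs52.Rod
import Crest.Agent.X212.Rs52.Abs
import Crest.Agent.X212.Rs83.Ref

/-!
# Row 212, BR-RS (helper52), part Wrd: the inside of an `S¹ × S²` arc in a word

* `exists_stw` (the tests), `ins_w`, `eta_w` (the class of the sphere), `gam_w` (the special class), `lens_w`.
-/

set_option autoImplicit false
set_option maxHeartbeats 400000
set_option linter.unusedSectionVars false
noncomputable section
open Set Function Module Matrix Filter Topology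
open scoped ContDiff Manifold Real
open Crest.Agent.R208.F (Ext)
open Crest.Agent.R208.FI

namespace Crest.Agent.X212.Rs52
open Dr59 M Wd38 Nm96 Num57 Cyf70
open Cyl58 hiding sph
open Rod53 hiding Uni X rho
open Line51 hiding tp Cs
open Rn83 (Ins sl tra_bn sl_bn bn_r' ip_psh2)
open Sid48 (cast_lt)
open Ds83 (thR piR)
open scoped Cap57
attribute [local instance] nbMs nbBs nbSc

variable {Γ : Nm} {C : Cx Γ} {Λ : NmL Γ} {L : LCx C Λ} {w : Shp Γ} {hw : w.OK} {X : TP V4}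
  {R : Rz C hw X} {x y s p q j : ℤ} {n : Wd38.Wt} {lam : Type} [Fintype lam] {N : ℕ} {ε : Fin N → Wd38.Wt}

theorem ch_bn (hw : w.OK) (t : TOK w n) (h : w.Rg x y) : CH (w.bz x y) (n.bn x y) := by
  have k : ∀ i, ¬(x < i ∧ i ≤ y) → n.bn x y (i - 1) = n.bn x y i ∧ w.bz x y (i - 1) = w.bz x y i := fun i k => by
    have := h.lt
    rw [h.bz_eq hw]
    rcases le_or_gt i x with l | l
    · rw [bn_le l, bn_le (by omega), Shp.bw_le l, Shp.bw_le (by omega)]
      exact ⟨rfl, rfl⟩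
    · rw [bn_ge (j := i) h.lt (by omega), bn_ge h.lt (by omega), Shp.bw_ge (j := i) h.lt (by omega), Shp.bw_ge h.lt (by omega)]
      exact ⟨rfl, rfl⟩
  refine exists_vch (w.isWd_bz x y) (fun i e => ?_) fun i e => ?_ <;> by_cases l : x < i ∧ i ≤ y
  · exact Int.cast_injective (α := ℝ) ((tra_bn hw t h i l.1 l.2).1 e)
  · exact (k i l).1
  · exact Int.cast_injective (α := ℝ) (((tra_bn hw t h i l.1 l.2).2 e).trans (Int.cast_neg _).symm)
  · rw [(k i l).2, eq_neg_iff_add_eq_zero, ← two_smul ℤ, smul_eq_zero_iff_right two_ne_zero] at e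
    exact absurd e (wd_ne (w.isWd_bz x y) i)

theorem sup_bn (h : Sup p q n) (h1 : x ≤ p) (h2 : q ≤ y) (k : j ≤ p ∨ q ≤ j) : n.bn x y j = 0 := by
  unfold Wt.bn
  split_ifs
  exacts [(h x (.inl h1)).2, (h _ (by omega)).1]

theorem cmb_bn (hw : w.OK) (h : w.Rg x y) (Z : Finset (Fin N)) (a : Fin N → ℤ) (b : ℤ) :
    (cmb Z a ε b (fib w x y)).bn x y = ∑ l ∈ Z, a l • (ε l).bn x y + b • fz (w.bz x y) x y := funext fun j => by
  simp only [Wt.bn, cmb, fib, fz, Pi.add_apply, Finset.sum_apply, Pi.smul_apply, smul_eq_mul]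
  by_cases k : j ≤ x
  · simp [k, k.not_gt]
  · by_cases k' : j < y
    · simp [k, k', min_eq_left k'.le, not_le.1 k, dot_pq, bz_r hw h le_rfl h.lt, bz_l hw h (not_le.1 k) k'.le]
    · simp [k, k', min_eq_right (not_lt.1 k')]

variable (C w) in
/-- the tests in the chart of the arc -/
abbrev SW (x y s : ℤ) (ε : Fin N → Wd38.Wt) (d : Fin N → ℤ → ℤ) (e : Fin N → XC C w x y → Ext E4) (f : XC C w x y → Ext E4) :
    Prop := St (C.T (w.kn x)) (w.bz x y) x y s (fun i => (ε i).bn x y) d e f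

variable (C) in
theorem exists_stw (hw : w.OK) (o : (Bs.rA x y).OK w) (ok : (Bs.rA x y).OKn w n)
    (hN : (Finset.filter (fun c => dt (w.lf c) (w.rt c) ≠ 0) (Finset.Ioc x y)).card = N + 2)
    (t : ∀ i, TOK w (ε i) ∧ Sup x y (ε i)) (g : ∀ i j, pr w x y (ε i) (ε j) = if i = j then -1 else 0) :
    ∃ s d e f, s * s = 1 ∧ n.bn x y x = s * n.bn x y y ∧ SW C w x y s ε d e f := by
  have h := o.1
  obtain ⟨s, s1, s2, s3⟩ : ∃ s : ℤ, s * s = 1 ∧ n.nr x = s * n.nl y ∧ (w.s y).l.2 = s • (w.s x).r.2 := by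
    rcases o.2 with e | e
    · exact ⟨1, rfl, by simp [ok.1 e], by simp [e]⟩
    · exact ⟨-1, rfl, by simp [ok.2 e], by simp [e]⟩
  obtain ⟨d, e, f, S⟩ := exists_st (T := C.T (w.kn x)) (M := N) (w.isWd_bz x y) h.lt
    (by rw [bz_l hw h h.lt le_rfl, bz_r hw h le_rfl h.lt, s3]) s1 (by
      classical
      rw [← hN, nv]
      refine congrArg _ (Finset.filter_congr fun c k => ?_)
      obtain ⟨a, b⟩ := Finset.mem_Ioc.1 k
      have := (w.isWd_bz x y).step c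
      rw [bz_r hw h (by omega) (by omega), bz_l hw h a b] at this ⊢
      exact ⟨fun u e => by have := u.sq; simp_all [Shp.lf, Shp.rt], fun u => this.resolve_left fun e => u e.dt_eq⟩)
    (fun i => ch_bn hw (t i).1 h) (fun i j => sup_bn (t i).2 le_rfl le_rfl)
    fun i j => (sl_bn hw (t i).1 (t j).1 h).trans (g i j)
  exact ⟨s, d, e, f, s1, by rw [bn_le le_rfl, bn_ge h.lt le_rfl, s2], S⟩

theorem oc_W (W : WL L R n lam) (h : w.Rg x y) : OC (C.T (w.kn x)) (w.bz x y) (tC C w x y ⁻¹' II x y)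
    (pB R h (Fp X.mf W.p)) fun j => n.bn x y j := by
  have o := (saC C (w := w) x y).op
  have a : (⟨fun z => W.p (cB R h z), 0⟩ : Ln E4 (XC C w x y) lam).On (𝓡 4) (tC C w x y ⁻¹' II x y) :=
    on_comp W.ln (cB_mp R h)
  refine oc_congr (oc_line (vch hw W.ok h) o a (W.tl h)) o fun p hp => ?_
  rw [pB, ← W.ln.F_pull isOpen_univ o (cB_mp R h) hp]
  exact a.F_congr o (fun _ _ => rfl) (fun z _ => congrFun (pm_zero _) z) hp

variable (C w) in
/-- the orientation of the chart -/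
def oC (x y : ℤ) : XC C w x y → Ext E4 := C.ok w x y

variable (C w) in
theorem saO (x y : ℤ) : Sa (C.T (w.kn x)) (w.bz x y) (al C (w.kn x)) (Orx52.oS (C.kd (w.kn x)).toTube) (oC C w x y) x y
    (tC C w x y ⁻¹' II x y) := saC C x y

variable (R)

include R in
theorem dk_tm (h : w.Rg x y) (h' : w.Rg p q) (h1 : x ≤ p) (h2 : q ≤ y) :
    dk (C.T (w.kn x)) (w.bz x y) p q ⊆ tC C w x y ⁻¹' II x y := (cB_disc R h h' h1 h2).1

theorem dk_src (h : w.Rg x y) (h' : w.Rg p q) (h1 : x ≤ p) (h2 : q ≤ y) :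
    dk (C.T (w.kn x)) (w.bz x y) p q ⊆ (cB R h).source := (dk_tm R h h' h1 h2).trans (cB_src R h)

theorem dk_img (h : w.Rg x y) (h' : w.Rg p q) (h1 : x ≤ p) (h2 : q ≤ y) :
    cB R h '' dk (C.T (w.kn x)) (w.bz x y) p q = R.D p q (Iio ((q - p) / 2)) := (cB_disc R h h' h1 h2).2

theorem D_in (h : w.Rg x y) (h1 : x < p) (h2 : q < y) {z : X.P.M} (hz : z ∈ R.D p q (Iio ((q - p) / 2 + 1 / 4))) :
    z ∈ R.D x y (Iio ((y - x) / 2)) ∧ z ∉ R.bd (.rA x y) := by
  obtain ⟨r, r', k1, k2, k3⟩ := R.D_up h h1.le h2.le hz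
  have := Rz.abs_cc x y p q (r := (y - x - (q - p)) / 2 - 1 / 2) (by linarith [cast_lt h2]) (by linarith [cast_lt h1])
  have k : r < (y - x) / 2 - 1 / 4 := by linarith [le_abs_self (r - r'), mem_Iio.1 k1]
  exact ⟨(k3 _).2 (k.trans (sub_lt_self _ (by norm_num))), fun l => ((k3 _).1 l).1.not_gt k⟩

variable (o : (Bs.rA x y).OK w)

/-- the band of the arc -/
abbrev bR : Band X.mf := R.bn (Bs.rA x y : Bs) o

variable (C hw) in
/-- the band in the chart -/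
abbrev jB := (C.T (w.kn x)).rb (wd (w.bz x y)) (uni_pz (o.1.prl hw)) (cc x y) (Bs.rA x y).ρ

variable (hw) in
include hw o in
theorem arcB : Tb.Arc (wd (w.bz x y)) (w.s x).r.2 (w.s x).r.2 (cc x y) (Bs.rA x y).ρ :=
  o.1.arc hw (b := .rA x y) rfl (PM.refl _) o.2

variable (C hw) in
theorem jB_mem (u) : jB C hw o u ∈ tC C w x y ⁻¹' II x y ∧ jB C hw o u ∉ bx (C.T (w.kn x)) (w.bz x y) x y :=
  have e := (C.T (w.kn x)).rr_rb (uni_pz (o.1.prl hw)) (arcB hw o) u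
  ⟨mem_II_of_le ((C.T _).abs_time_le _ _) (e.trans_lt ((Bs.rA x y).ρ_mem _).2),
    fun k => (e.symm.trans_lt (bx_rr o.1.lt k)).not_gt ((Bs.rA x y).ρ_mem _).1⟩

theorem pm_bn (F : XC C w x y → Ext E4) (u) : pm (IC (bR R o).Y.I) X.mf.I (bR R o).j (psh (cB R o.1) F) u =
    pm (((𝓡 1).prod (𝓡 2)).prod 𝓘(ℝ, ℝ)) (𝓡 4) (jB C hw o) F u :=
  have k := (jB_mem C hw o u).1
  (pm_comp (f := jB C hw o) (g := cB R o.1) (((cB_mp R o.1).sm _ k).mdifferentiableAt ne0)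
    ((((C.T _).isOE_rb _ (arcB hw o)).contMDiff u).mdifferentiableAt ne0)).symm.trans
    (pm_congr_right (pm_psh _ (cB_src R o.1 k) F))

variable {d : Fin N → ℤ → ℤ} {e : Fin N → XC C w x y → Ext E4} {f : XC C w x y → Ext E4} (S : SW C w x y s ε d e f)
include S

theorem ins_w (h : w.Rg x y) : Ins X.mf.I (-R.O) (R.D x y (Iio ((y - x) / 2))) (R.D x y (Iio ((y - x) / 2)))
    (fun i => psh (cB R h) (e i)) (fun _ => -(2 * π) ^ 2) (psh (cB R h) f) :=
  dk_img R h h le_rfl le_rfl ▸ (S.ins (saO C w x y)).push _ (dk_src R h h le_rfl le_rfl) (ori_O R)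
    fun p a => cB_same R h p (dk_tm R h h le_rfl le_rfl a)

omit S in
theorem ip_w (h : w.Rg x y) {g : XC C w x y → Ext E4} (hg : Cs (𝓡 4) 2 (dk (C.T (w.kn x)) (w.bz x y) x y) g)
    (c : X.mf.M → Ext X.mf.E) : ip X.mf.I (-R.O) c (psh (cB R h) g) = ip (𝓡 4) (-oC C w x y) (pB R h c) g :=
  hg.ip_psh _ (dk_src R h h le_rfl le_rfl) (ori_O R) (saO C w x y).ori (fun p a => cB_same R h p (dk_tm R h h le_rfl le_rfl a)) c

omit S in
theorem ip_w2 (h : w.Rg x y) {g : XC C w x y → Ext E4} (hg : Cs (𝓡 4) 2 (dk (C.T (w.kn x)) (w.bz x y) x y) g)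
    (c : XC C w x y → Ext E4) : ip X.mf.I (-R.O) (psh (cB R h) c) (psh (cB R h) g) = ip (𝓡 4) (-oC C w x y) c g :=
  (ip_w R h hg _).trans (hg.ip_congr fun _ k => pm_psh _ (dk_src R h h le_rfl le_rfl k) c)

/-- the class of the sphere, away from a ball -/
theorem eta_w (s1 : s * s = 1) (o' : (Bs.sA p q).OK w) (h1 : x < p) (h2 : q < y) :
    ∃ η, Cl X.mf.I 2 (R.D x y (Iio ((y - x) / 2))) η ∧ (∀ z ∈ R.D p q (Iio ((q - p) / 2 + 1 / 4)), η z = 0) ∧
      (∀ u : (bR R o).Y.M × ℝ, -1 < u.2 → u.2 < 0 → pm (IC (bR R o).Y.I) X.mf.I (bR R o).j η u =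
        Rf65.ar (IC (bR R o).Y.I) (fun u => piR C.kd u.1) u) ∧ ip X.mf.I (-R.O) η (psh (cB R o.1) f) ≠ 0 := by
  have h := o.1
  have hu := uni_pz (h.prl hw)
  have lt := o'.1.lt
  have ax := bz_r hw h le_rfl h.lt
  obtain ⟨A, F, m, k1, k2, k3, k4, k5, k6, k7⟩ := exists_eta (T := C.T (w.kn x)) (a := w.bz x y) (x := x) (by
    rw [bz_r hw h h1.le (by omega), bz_l hw h (by omega) h2.le]
    exact fun e => by simpa [e] using o'.2.sq) h1.le lt.le h2 (dual _ (pz (w.s x).r.2) 1 0)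
    (show (0 : ℝ) < y - x + 1 by linarith [cast_lt h.lt])
  obtain ⟨β, b1, b2, b3⟩ := band_ar hu (arcB hw o) k1 (dual_left hu _ _) (dual_right hu _ _)
    (fun t => (eventually_lt_nhds (show _ < (p : ℝ) + 1 / 12 by
      linarith [(Shp.Rg.feet (b := .rA x y) rfl t).1.2, cast_lt h1])).mono fun u k => k5 u k.le)
    fun t => (eventually_gt_nhds (show (q : ℝ) + 11 / 12 < _ by
      linarith [(Shp.Rg.feet (b := .rA x y) rfl t).2.1, cast_lt h2])).mono fun u k => k6 u k.le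
  have sd : (bR R o).wall.sd false = R.D x y (Iio ((y - x) / 2)) := Ds83.bn_sd R o false
  have c := cl_psh (cB R h) S.op (dk_src R h h le_rfl le_rfl) (k1.cl.mono (subset_univ _))
  rw [dk_img R h h le_rfl le_rfl] at c
  obtain ⟨η, e1, e2, e3, e4⟩ := exists_end (bR R o) (sd ▸ c) b1 b2
  rw [sd] at e1 e2 e3
  refine ⟨η, e1, fun z hz => ?_, fun u a b => (e4 u a b).trans ((congrArg (· + _) (pm_bn R o F u)).trans (b3 u).symm), ?_⟩
  · rw [e3 z (D_in R h h1 h2 hz).1 (Ds83.bn_band R o ▸ (D_in R h h1 h2 hz).2)]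
    obtain ⟨z, a, rfl⟩ := (R.B h).surj (II_mono h1.le h2.le (R.D_II hz))
    have a' : C.tm z ∈ II x y := (show C.tm z = _ from a) ▸ II_mono h1.le h2.le (R.D_II hz)
    obtain ⟨l1, l2, l3⟩ := (R.mem_D h o'.1 (Rz.ov_of_le o'.1 h1.le h2.le) a').1 hz
    exact psh_zero _ (cB_src R h a') (k7 z l2 (((C.T _).yy_le _ z).trans_lt (lt_trans l3 (by
      linarith [cast_lt h1, cast_lt h2, cast_lt lt]))) (Ioo_subset_Ioo (by linarith) (by linarith) l1))
  · have s2 : (s : ℝ) * s = 1 := by exact_mod_cast s1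
    rw [(ins_w R S h).cf.ip_coh (ori_O R) e1.sm c.sm e2, ip_w2 R h S.cf, S.fi (saO C w x y) (oc_mono k2 (subset_univ _)), k3, k4,
      S.hs, ax, show ∀ η u, dot η (s • u) = s * dot η u from fun η u => by simp [dot]; ring, dual_left hu]
    simp [s2, Real.pi_ne_zero]

/-- the special class -/
theorem gam_w (W : WL L R n lam) (s1 : s * s = 1) (hf : n.bn x y x = s * n.bn x y y) {Z : Finset (Fin N)} {a : Fin N → ℤ}
    (hl : ∀ i, |pr w x y n (ε i)| = if i ∈ Z then 0 else 1) (a1 : ∀ i ∈ Z, |a i| = 1) (t : ∀ i, TOK w (ε i))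
    {b p q : Bool → ℤ} (h' : ∀ β, w.Rg (p β) (q β) ∧ x < p β ∧ q β < y ∧ Sup (p β) (q β) (cmb Z a ε (b β) (fib w x y)))
    (ho : Odd (b false - b true)) : ∃ (γ : Bool → X.mf.M → Ext X.mf.E) (α : X.mf.M → Ext X.mf.E) (m : ℤ),
      (∀ β, Cs X.mf.I 2 (R.D (p β) (q β) (Iio ((q β - p β) / 2))) (γ β)) ∧
      Ex X.mf.I (R.D x y (Iio ((y - x) / 2))) (γ false - ∑ k ∈ Z, (a k : ℝ) • (2 * π)⁻¹ • psh (cB R o.1) (e k)) ∧
      (Sm X.mf.I (R.D x y (Iio ((y - x) / 2))) α ∧ Dg 1 (R.D x y (Iio ((y - x) / 2))) α) ∧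
      EqOn (dM X.mf.I α) (γ false - γ true) (R.D x y (Iio ((y - x) / 2))) ∧
      (∀ u : (bR R o).Y.M × ℝ, pm (IC (bR R o).Y.I) X.mf.I (bR R o).j α u =
        ((m / (2 * π) : ℝ) • ang (IC (bR R o).Y.I) fun u => thR C.kd u.1) u) ∧ Odd m ∧
      Rf65.Ref X.mf.I W.p (R.D x y (Iio ((y - x) / 2))) (γ false) := by
  have h := o.1
  have H := saO C w x y
  have hu := uni_pz (h.prl hw)
  have z : ∀ β j, j ≤ p β ∨ q β ≤ j → (∑ l ∈ Z, a l • (ε l).bn x y + b β • fz (w.bz x y) x y) j = 0 := fun β j k =>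
    cmb_bn hw h Z a (b β) ▸ sup_bn (h' β).2.2.2 (h' β).2.1.le (h' β).2.2.1.le k
  choose d' g k _ using fun β => exists_ts (T := C.T (w.kn x)) S.iw (h' β).1.lt (S.ch Z a (b β)) (z β)
  have sb := fun β => bx_mono (T := C.T (w.kn x)) (a := w.bz x y) (h' β).2.1.le (h' β).2.2.1.le
  have sr := dk_src R h h le_rfl le_rfl
  have im := dk_img R h h le_rfl le_rfl
  obtain ⟨α, a2, a3⟩ := exists_al (x := x) (y := y) (k false) (k true) (η := (b false - b true) • pq (w.bz x y x))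
    fun j l l' => by simp [fz_eq S.hs l l', dot, sub_mul]; ring
  have a4 := fun z (l : z ∈ dk (C.T (w.kn x)) (w.bz x y) x y) => a2 z l.1 (II_sub x y (dk_tm R h h le_rfl le_rfl l))
  have zx := z false x (.inl (h' false).2.1.le)
  have zy := z false y (.inr (h' false).2.2.1.le)
  refine ⟨fun β => (2 * π)⁻¹ • psh (cB R h) (g β), (2 * π)⁻¹ • psh (cB R h) α,
    -dot ((b false - b true) • pq (w.bz x y x)) (pz (w.s x).r.2), fun β => ?_, exg (ins_w R S h)
      (im ▸ cl_psh _ S.op sr ((k false).tg.cl.mono (subset_univ _))) ?_ fun i => ?_,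
    ⟨(im ▸ sm_psh _ S.op sr fun z l => (a4 z l).1).smul _, (im ▸ dg_psh _ sr fun z l => (a4 z l).2.1).smul _⟩,
    fun z l => ?_, fun u => ?_, ?_, ?_⟩
  · exact (dk_img R h (h' β).1 (h' β).2.1.le (h' β).2.2.1.le ▸ ((k β).cs.mono fun _ => bx_dk (h' β).1.lt).psh _
      (dk_src R h (h' β).1 (h' β).2.1.le (h' β).2.2.1.le)).smul _
  · rw [ip_w2 R h S.cf, S.fi H ((k false).oc _), zx, zy]
    simp
  · rw [ip_w2 R h (S.cs i), S.ie H ((k false).oc _), S.pc H]
  · rw [← smul_sub, ← psh_sub, dM_smul ne0 _ (sm_psh _ S.op sr (fun z l => (a4 z l).1) z (im.ge l))]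
    exact congrArg ((2 * π)⁻¹ • ·) (dM_psh _ S.op sr (fun z l => (a4 z l).1) (fun z l => (a4 z l).2.2) (im.ge l))
  · have A := arcB hw o
    rw [pm_smul, Pi.smul_apply, pm_bn, band_al hu A (fun u => (a2 _ (rb_tor hu A u) (II_sub x y (jB_mem C hw o u).1)).1)
      (fun u l => a3 _ (rb_tor hu A u) l (mt (@sb false _) (jB_mem C hw o u).2) (mt (@sb true _) (jB_mem C hw o u).2))
      (by rw [← bz_r hw h le_rfl h.lt]; simp [dot, pq]; ring), Pi.smul_apply, Int.cast_neg, div_eq_inv_mul]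
    exact smul_smul _ _ _
  · have : Odd (dt (w.s x).r.2 (pz (w.s x).r.2)) := (Int.odd_mul.1 (hu.sq ▸ odd_one)).1
    rw [odd_neg, bz_r hw h le_rfl h.lt]
    exact Eq.subst (by simp [dot, pq, dt]; ring) (ho.mul this)
  · obtain ⟨ι, κ, _, _, _, _, c, k', S', c1, c2, c3⟩ := Rs83.sc (C.T (w.kn x)) _ S.iw
    have tn : TOK w n := ⟨W.ok.rod, W.ok.eq, W.ok.neg⟩
    have c4 := oc_comb 1 (oc_mono (oc_W W h) (dk_tm R h h le_rfl le_rfl)) ((k false).oc _)
    rw [one_smul, one_smul] at c4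
    obtain ⟨c', c5, c6⟩ := S.ref H c1 c2 c3 (n := n.bn x y + (∑ l ∈ Z, a l • (ε l).bn x y + b false • fz (w.bz x y) x y))
      (Eq.subst (motive := OC _ _ _ _) (funext fun j => (Int.cast_add _ _).symm) c4)
      (by rw [Pi.add_apply (n.bn x y), Pi.add_apply (n.bn x y), zx, zy, add_zero, add_zero, hf]) s1 fun i => by
        have := hl i
        rw [← sl_bn hw tn (t i) h, ← S.pe i _ (tra_bn hw tn h)] at this
        rw [show (fun j => ((n.bn x y + _ : ℤ → ℤ) j : ℝ)) = _ + _ from funext fun j => Int.cast_add _ _, prs_add', S.pc H]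
        by_cases l : i ∈ Z
        · rw [if_pos l, abs_eq_zero] at this
          rw [this, if_pos l, zero_add, abs_neg]
          exact_mod_cast a1 i l
        · rwa [if_neg l, add_zero, ← if_neg l (c := i ∈ Z) (t := 0) (e := (1 : ℝ))]
    exact im ▸ ref_psh _ S.op sr c5 c6

omit S in
theorem tok_sph {z : ℤ} {k : Γ.ι} (u : ∀ j, z - 1 ≤ j → j ≤ z + 4 → w.s j = .rod (k, lrd z j)) :
    TOK w (sph (.lA z (z + 3))) := by
  have v : ∀ j, z < j → j ≤ z + 3 → w.lf j = lrd z (j - 1) ∧ w.rt j = lrd z j := fun j a b => by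
    simp [Shp.lf, Shp.rt, u j (by omega) (by omega), u (j - 1) (by omega) (by omega), Sl.l, Sl.r]
  refine ⟨fun _ _ _ _ _ => rfl, fun j _ _ e => ?_, fun j _ _ e => ?_⟩ <;> simp only [sph, Bs.lo, Bs.hi] <;>
    by_cases l : z < j ∧ j ≤ z + 3
  · rw [(v j l.1 l.2).1, (v j l.1 l.2).2] at e
    obtain rfl | rfl | rfl : j = z + 1 ∨ j = z + 2 ∨ j = z + 3 := by omega
    all_goals simp +arith [lrd] at e ⊢
  · rw [if_neg (by omega), if_neg (by omega)]
  · rw [(v j l.1 l.2).1, (v j l.1 l.2).2] at e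
    obtain rfl | rfl | rfl : j = z + 1 ∨ j = z + 2 ∨ j = z + 3 := by omega
    all_goals simp +arith [lrd] at e
  · rw [if_neg (by omega), if_neg (by omega), neg_zero]

/-- inside a lens arc -/
theorem lens_w (h : w.Rg x y) (W : WL L R n lam) (t : ∀ i, TOK w (ε i)) {z : ℤ} {k : Γ.ι} (h1 : x < z) (h2 : z + 3 < y)
    (hl : w.l < z - 1) (u : ∀ j, z - 1 ≤ j → j ≤ z + 4 → w.s j = .rod (k, lrd z j)) (n1 : n.nl (z - 1) = 1)
    (n2 : n.nl (z + 3) = 1) (n3 : n.nl (z + 1) = 0 ∨ n.nl (z + 1) = 1) : ∃ τ : ℤ, τ * τ = 1 ∧ ∀ i, ∃ r : ℝ,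
      Ex X.mf.I (R.D z (z + 3) (Iio (((z + 3 : ℤ) - z) / 2))) ((2 * π)⁻¹ • psh (cB R h) (e i) - r • Fp X.mf W.p) ∧
      r * (4 * π) = τ * pr w x y (ε i) (sph (.lA z (z + 3))) := by
  have H := saO C w x y
  have hi := h.hi
  have tn : TOK w n := ⟨W.ok.rod, W.ok.eq, W.ok.neg⟩
  have h' : w.Rg z (z + 3) := ⟨by omega, by omega, by omega, fun j a b => ⟨_, u j (by omega) (by omega)⟩⟩
  have v : ∀ j, z - 1 ≤ j → j ≤ z + 3 → w.bz x y j = lrd z j := fun j a b => by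
    rw [bz_r hw h (by omega) (by omega), u j a (by omega)]; rfl
  have v0 : w.bz x y z = (1, 2) := by simp [v, lrd]
  have v1 : w.bz x y (z + 1) = (0, 1) := by simp +arith [v, lrd]
  have v2 : w.bz x y (z + 1 + 1) = (0, 1) := by simp +arith [v, lrd]
  have v3 : w.bz x y (z + 1 + 1 + 1) = (-1, 2) := by simp +arith [v, lrd]
  have sp : ∀ j, (sph (.lA z (z + 3))).bn x y j = if z < j ∧ j < z + 3 then 1 else 0 := fun j => by
    simp only [Wt.bn, sph, Bs.lo, Bs.hi]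
    split_ifs <;> omega
  obtain ⟨d', ψ, k1, k2, -⟩ := exists_ts (T := C.T (w.kn x)) (s := z) (t := z + 3) S.iw (by omega)
    (ch_bn hw (tok_sph u) h) fun j a => by rw [sp, if_neg (by omega)]
  have tr := tra_bn hw tn h
  have m0 : n.bn x y z = 1 := Int.cast_injective (α := ℝ) (((tr z h1 (by omega)).1 (by rw [v0, v _ le_rfl (by omega), lrd, if_pos (by omega)])).symm.trans (by
    simp only [bn_r' tn h (show x ≤ z - 1 by omega) (by omega), ← tn.rod (z - 1) _ hl (by omega) (u _ le_rfl (by omega)), n1]))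
  have m2 : (n.bn x y (z + 1) : ℝ) = n.bn x y (z + 1 + 1) := by
    simpa using (tr (z + 1 + 1) (by omega) (by omega)).1 (by rw [add_sub_cancel_right, v1, v2])
  have m3 : n.bn x y (z + 1 + 1 + 1) = 1 := (bn_mid (by omega) (by omega)).trans ((congrArg n.nl (by ring)).trans n2)
  have sr := dk_src R h h' h1.le h2.le
  have c := oc_mono (oc_W W h) (dk_tm R h h' h1.le h2.le)
  have nv2 : nv (w.bz x y) z (z + 3) = 2 := by
    rw [show z + 3 = z + 1 + 1 + 1 by ring, nv_succ _ (by omega), nv_succ _ (by omega), nv_succ _ le_rfl, nv_self, v0, v1, v2, v3]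
    simp [Rod53.Uni, dt]
  have op := (hd_dk (T := C.T (w.kn x)) S.iw k1.lt nv2).1
  have i1 : ip (𝓡 4) (-oC C w x y) (pB R h (Fp X.mf W.p)) ψ = (2 * π) ^ 2 * (2 * (1 - 2 * n.nl (z + 1))) := by
    rw [k1.ip H op (fun _ => bx_dk k1.lt) c, k2 _ (tr.mono h1.le h2.le), sl]
    simp only [sp]
    rw [show z + 3 = z + 1 + 1 + 1 by ring, ← Finset.insert_Ioc_right_eq_Ioc_add_one (by omega), ← Finset.insert_Ioc_right_eq_Ioc_add_one (by omega),
      ← Finset.insert_Ioc_right_eq_Ioc_add_one le_rfl, Finset.Ioc_self, ← bn_mid (x := x) (y := y) (by omega) (by omega),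
      Finset.sum_insert (by simp; omega), Finset.sum_insert (by simp), Finset.sum_insert (by simp)]
    simp only [add_sub_cancel_right, v0, v1, v2, v3, m0, ← m2, m3]
    rw [if_pos (by omega), if_neg (by omega), if_pos (by omega), if_neg (by omega)]
    simp [lr, dt, Nm96.rho]
    ring
  have τ1 : (1 - 2 * n.nl (z + 1)) * (1 - 2 * n.nl (z + 1)) = 1 := by rcases n3 with e | e <;> simp [e]
  have τ2 : (1 - 2 * n.nl (z + 1) : ℝ) * (1 - 2 * n.nl (z + 1)) = 1 := by exact_mod_cast τ1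
  have τ3 := left_ne_zero_of_mul_eq_one τ2
  refine ⟨_, τ1, fun i => ?_⟩
  have x1 := (ex_one H k1 nv2 c.cl (by rw [i1]; positivity) ((S.ts i).tg.cl.mono (subset_univ _))).smul (2 * π)⁻¹
  refine ⟨(2 * π)⁻¹ * (ip (𝓡 4) (-oC C w x y) (e i) ψ / ip (𝓡 4) (-oC C w x y) (pB R h (Fp X.mf W.p)) ψ),
    dk_img R h h' h1.le h2.le ▸ ex_pd (cB R h) op sr (x1.congr fun p l => ?_), ?_⟩
  · rw [pm_sub, pm_smul, pm_smul, smul_sub, smul_smul, Pi.sub_apply, Pi.sub_apply, Pi.smul_apply, Pi.smul_apply _ (e i),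
      pm_psh _ (sr l)]
  · rw [i1, ip_comm (S.ts i).tg.cl.dg, S.ie H (k1.oc _), S.pe i _ k1.ch.tra, sl_bn hw (tok_sph u) (t i) h,
      show pr w x y _ _ = pr w x y (ε i) _ from Finset.sum_congr rfl fun _ _ => by unfold lb; ring]
    push_cast
    field_simp
    linear_combination (-4 * pr w x y (ε i) (sph (.lA z (z + 3)))) * τ2

end Crest.Agent.X212.Rs52
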